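import Vale.Agent.P111.WF.Iter
import Mathlib.Analysis.SpecialFunctions.Complex.CircleAddChar

/-!
The form of the theorem for finite dimensional spaces.
-/

set_option linter.unusedSectionVars false

namespace Vale.Agent.P111.WF

open Finset Vale.Agent.P111 Vale.Agent.P111.TK Vale.Agent.P111.TW

/-- The bidual of a finite dimensional space. -/
theorem cotype_bidual {q C : ℝ} {E : Type*} [NormedAddCommGroup E] [NormedSpace ℝ E]
    [FiniteDimensional ℝ E] (h : CotypeWith q C E) :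
    CotypeWith q C ((E →L[ℝ] ℝ) →L[ℝ] ℝ) := by
  have hinj : Function.Injective (NormedSpace.inclusionInDoubleDualLi ℝ (E := E)) :=
    (NormedSpace.inclusionInDoubleDualLi ℝ).injective
  have h1 : Module.finrank ℝ (E →L[ℝ] ℝ) = Module.finrank ℝ E := finrank_dual E
  have h2 : Module.finrank ℝ ((E →L[ℝ] ℝ) →L[ℝ] ℝ) = Module.finrank ℝ (E →L[ℝ] ℝ) :=
    finrank_dual _
  have hsurj : Function.Surjective (NormedSpace.inclusionInDoubleDualLi ℝ (E := E)) := by
    have h3 := (LinearMap.injective_iff_surjective_of_finrank_eq_finrank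
      (f := (NormedSpace.inclusionInDoubleDualLi ℝ (E := E)).toLinearMap)
      (by rw [h2, h1])).mp hinj
    exact h3
  intro n y
  choose z hz using fun i => hsurj (y i)
  have h3 := h n z
  have h4 : ∀ i, ‖y i‖ = ‖z i‖ := fun i => by rw [← hz i, LinearIsometry.norm_map]
  have h5 : ∀ ε : Fin n → ℤˣ, ‖∑ i, sg (ε i) • y i‖ = ‖∑ i, sg (ε i) • z i‖ := by
    intro ε
    rw [← LinearIsometry.norm_map (NormedSpace.inclusionInDoubleDualLi ℝ (E := E))
      (∑ i, sg (ε i) • z i), ← LinearIsometry.coe_toLinearMap, map_sum]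
    congr 1
    refine Finset.sum_congr rfl fun i _ => ?_
    rw [map_smul, LinearIsometry.coe_toLinearMap, hz]
  simp only [h4, h5]
  exact h3

/-- From powers to real exponents. -/
theorem le_of_pow_le {N K d η : ℝ} {A : ℕ} (hA : A ≠ 0) (hη : 1 ≤ η * A) (hd : 1 ≤ d)
    (h : N ^ A ≤ K * d) : N ≤ max 1 K * d ^ η := by
  by_contra hlt
  rw [not_le] at hlt
  have h1 : (max 1 K * d ^ η) ^ A < N ^ A :=
    pow_lt_pow_left₀ hlt (by positivity) hA
  have h2 : K * d ≤ (max 1 K * d ^ η) ^ A := by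
    rw [mul_pow]
    refine mul_le_mul ?_ ?_ (by linarith) (by positivity)
    · exact (le_max_right 1 K).trans (le_self_pow₀ (le_max_left 1 K) hA)
    · rw [← Real.rpow_natCast, ← Real.rpow_mul (by linarith)]
      calc d = d ^ (1:ℝ) := (Real.rpow_one d).symm
        _ ≤ d ^ (η * A) := Real.rpow_le_rpow_of_exponent_le hd hη
  linarith

/-- The theorem for finite dimensional spaces: the real parts. -/
theorem fd_re (q r C ε η : ℝ) (hq : 2 ≤ q) (hr : 2 ≤ r) (hε : 0 < ε) (hη : 0 < η) :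
    ∃ K : ℝ, 0 < K ∧ ∀ (E : Type*) [NormedAddCommGroup E] [NormedSpace ℝ E]
      [FiniteDimensional ℝ E] [Nontrivial E],
      CotypeWith q C E → CotypeWith r C (E →L[ℝ] ℝ) →
      ∀ (G : Type) [AddCommGroup G] [Fintype G] (θ : G → E), (∀ x, ‖θ x‖ ≤ 1) →
      (#(Finset.univ.filter fun b : AddChar G ℂ => ε ≤ ‖avg fun x => (b x).re • θ x‖) : ℝ) ≤
        K * (Module.finrank ℝ E : ℝ) ^ η := by
  obtain ⟨A, hA⟩ := exists_nat_gt (1 / η)
  have hA0 : A ≠ 0 := by
    rintro rfl
    rw [Nat.cast_zero] at hA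
    exact absurd hA (not_lt.mpr (by positivity))
  have hA1 : 1 ≤ η * A := by
    rw [div_lt_iff₀ hη] at hA
    linarith
  obtain ⟨K, hK, h⟩ := op_main r q (max C 1) ε A hr hq hε
  refine ⟨max 1 K, by positivity, ?_⟩
  intro E _ _ _ _ hE hE' G _ _ θ hθ
  let X := E →L[ℝ] ℝ
  have hX : CotypeWith r (max C 1) X := cotype_mono hE' (le_max_left _ _)
  have hX' : CotypeWith q (max C 1) (X →L[ℝ] ℝ) :=
    cotype_mono (cotype_bidual hE) (le_max_left _ _)
  let ι : E →ₗᵢ[ℝ] (X →L[ℝ] ℝ) := NormedSpace.inclusionInDoubleDualLi ℝ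
  have hθ' : ∀ x, ‖ι (θ x)‖ ≤ 1 := fun x => by
    rw [LinearIsometry.norm_map]; exact hθ x
  have hfd : FiniteDimensional ℝ X :=
    (LinearMap.toContinuousLinearMap (𝕜 := ℝ) (E := E) (F' := ℝ)).finiteDimensional
  have hid : ‖ContinuousLinearMap.id ℝ X‖ ≤ max C 1 :=
    ContinuousLinearMap.norm_id_le.trans (le_max_right _ _)
  have h1 := h X (ContinuousLinearMap.id ℝ X) hX hX' hid inferInstance G (fun x => ι (θ x)) hθ'
  have hrank : (Module.finrank ℝ (LinearMap.range
      ((ContinuousLinearMap.id ℝ X : X →L[ℝ] X) : X →ₗ[ℝ] X)) : ℝ) ≤ Module.finrank ℝ E := by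
    have h2 : Module.finrank ℝ (LinearMap.range
      ((ContinuousLinearMap.id ℝ X : X →L[ℝ] X) : X →ₗ[ℝ] X)) ≤ Module.finrank ℝ X :=
      Submodule.finrank_le _
    rw [finrank_dual E] at h2
    exact_mod_cast h2
  have hd1 : (1:ℝ) ≤ Module.finrank ℝ E := by
    have : 0 < Module.finrank ℝ E := Module.finrank_pos
    exact_mod_cast this
  have hfcr : ∀ b : AddChar G ℂ, ‖fcr (ContinuousLinearMap.id ℝ X) (fun x => ι (θ x)) b‖ =
      ‖avg fun x => (b x).re • θ x‖ := by
    intro b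
    rw [← LinearIsometry.norm_map ι (avg fun x => (b x).re • θ x)]
    congr 1
    unfold fcr avg
    rw [← LinearIsometry.coe_toLinearMap, map_smul, map_sum]
    congr 1
    refine Finset.sum_congr rfl fun x _ => ?_
    simp only [map_smul, ContinuousLinearMap.comp_id]
  simp only [hfcr] at h1
  refine le_of_pow_le hA0 hA1 hd1 (h1.trans ?_)
  exact mul_le_mul_of_nonneg_left (max_le hd1 hrank) hK.le

/-- The product of two characters. -/
def prodChar {G H : Type*} [AddCommGroup G] [AddCommGroup H] (b : AddChar G ℂ)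
    (c : AddChar H ℂ) : AddChar (G × H) ℂ where
  toFun p := b p.1 * c p.2
  map_zero_eq_one' := by simp
  map_add_eq_mul' p p' := by
    simp only [Prod.fst_add, Prod.snd_add, AddChar.map_add_eq_mul]
    ring

theorem prodChar_apply {G H : Type*} [AddCommGroup G] [AddCommGroup H] (b : AddChar G ℂ)
    (c : AddChar H ℂ) (p : G × H) : prodChar b c p = b p.1 * c p.2 := rfl

/-- Imaginary parts are real parts on a product with `ℤ/3`. -/
theorem im_eq_re {E : Type*} [NormedAddCommGroup E] [NormedSpace ℝ E] {G : Type*}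
    [AddCommGroup G] [Fintype G] (θ : G → E) (b : AddChar G ℂ) :
    (avg fun p : G × ZMod 3 => (prodChar b (ZMod.stdAddChar (N := 3)) p).re •
      ((-(ZMod.stdAddChar (N := 3) p.2).im) • θ p.1)) = (1 / 2 : ℝ) • avg fun x => (b x).im • θ x := by
  have h0 : (ZMod.stdAddChar (N := 3) + ZMod.stdAddChar (N := 3) : AddChar (ZMod 3) ℂ) ≠ 0 := by
    intro h
    have h1 : (ZMod.stdAddChar (N := 3) + ZMod.stdAddChar (N := 3) : AddChar (ZMod 3) ℂ) 1 = 1 := by
      rw [h]; rfl
    rw [AddChar.add_apply, ← AddChar.map_add_eq_mul] at h1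
    have h2 : ZMod.stdAddChar (N := 3) (1 + 1) = ZMod.stdAddChar (N := 3) 0 := by
      rw [h1, AddChar.map_zero_eq_one]
    have h3 := ZMod.injective_stdAddChar h2
    exact absurd h3 (by decide)
  have hri : (avg fun k : ZMod 3 => (ZMod.stdAddChar (N := 3) k).re *
      (-(ZMod.stdAddChar (N := 3) k).im)) = 0 := by
    have h1 := avg_im_char (ZMod.stdAddChar (N := 3) + ZMod.stdAddChar (N := 3))
    have h2 : ∀ k : ZMod 3, (ZMod.stdAddChar (N := 3) k).re * (-(ZMod.stdAddChar (N := 3) k).im) =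
        (-(1/2:ℝ)) * ((ZMod.stdAddChar (N := 3) + ZMod.stdAddChar (N := 3) :
          AddChar (ZMod 3) ℂ) k).im := by
      intro k
      rw [AddChar.add_apply, Complex.mul_im]
      ring
    simp only [h2]
    rw [avg_mul_left, h1, mul_zero]
  have hii : (avg fun k : ZMod 3 => (-(ZMod.stdAddChar (N := 3) k).im) *
      (-(ZMod.stdAddChar (N := 3) k).im)) = 1 / 2 := by
    have h1 := avg_re_char (ZMod.stdAddChar (N := 3) + ZMod.stdAddChar (N := 3))
    rw [if_neg h0] at h1
    have h2 : ∀ k : ZMod 3, (-(ZMod.stdAddChar (N := 3) k).im) *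
        (-(ZMod.stdAddChar (N := 3) k).im) = 1 / 2 - (1 / 2) *
          ((ZMod.stdAddChar (N := 3) + ZMod.stdAddChar (N := 3) : AddChar (ZMod 3) ℂ) k).re := by
      intro k
      have h3 : ‖ZMod.stdAddChar (N := 3) k‖ = 1 := AddChar.norm_apply _ _
      have h4 : Complex.normSq (ZMod.stdAddChar (N := 3) k) = 1 := by
        rw [Complex.normSq_eq_norm_sq, h3, one_pow]
      rw [Complex.normSq_apply] at h4
      rw [AddChar.add_apply, Complex.mul_re]
      linarith
    simp only [h2]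
    rw [avg_sub, avg_mul_left, h1, mul_zero, sub_zero, avg_const]
  have h1 : ∀ p : G × ZMod 3, (prodChar b (ZMod.stdAddChar (N := 3)) p).re •
      ((-(ZMod.stdAddChar (N := 3) p.2).im) • θ p.1) =
      ((ZMod.stdAddChar (N := 3) p.2).re * (-(ZMod.stdAddChar (N := 3) p.2).im)) •
        ((b p.1).re • θ p.1) + ((-(ZMod.stdAddChar (N := 3) p.2).im) *
          (-(ZMod.stdAddChar (N := 3) p.2).im)) • ((b p.1).im • θ p.1) := by
    intro p
    rw [prodChar_apply, Complex.mul_re, smul_smul, smul_smul, smul_smul, ← add_smul]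
    congr 1
    ring
  have h2 : ∀ (u : ZMod 3 → ℝ) (f : G → E), (avg fun p : G × ZMod 3 => u p.2 • f p.1) =
      (avg u) • avg f := by
    intro u f
    unfold avg
    rw [Fintype.sum_prod_type_right, Fintype.card_prod]
    have h3 : ∀ k : ZMod 3, ∑ x : G, u (x, k).2 • f (x, k).1 = u k • ∑ x, f x := fun k => by
      rw [Finset.smul_sum]
    simp only [h3]
    rw [← Finset.sum_smul, smul_smul, smul_smul]
    congr 1
    push_cast
    rw [mul_inv, smul_eq_mul]
    ring
  simp only [h1]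
  rw [avg_add, h2 (fun k => (ZMod.stdAddChar (N := 3) k).re * (-(ZMod.stdAddChar (N := 3) k).im))
    fun x => (b x).re • θ x, h2 (fun k => (-(ZMod.stdAddChar (N := 3) k).im) *
          (-(ZMod.stdAddChar (N := 3) k).im)) fun x => (b x).im • θ x, hri, hii, zero_smul,
    zero_add]

/-- **The theorem for finite dimensional spaces.** -/
theorem fd_main (q r C ε η : ℝ) (hq : 2 ≤ q) (hr : 2 ≤ r) (hε : 0 < ε) (hη : 0 < η) :
    ∃ K : ℝ, ∀ (E : Type*) [NormedAddCommGroup E] [NormedSpace ℝ E]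
      [FiniteDimensional ℝ E] [Nontrivial E],
      CotypeWith q C E → CotypeWith r C (E →L[ℝ] ℝ) →
      ∀ (G : Type) [AddCommGroup G] [Fintype G] (θ : G → E), (∀ x, ‖θ x‖ ≤ 1) →
      (#(Finset.univ.filter fun b : AddChar G ℂ =>
        ε ≤ ‖avg fun x => (b x).re • θ x‖ ∨ ε ≤ ‖avg fun x => (b x).im • θ x‖) : ℝ) ≤
        K * (Module.finrank ℝ E : ℝ) ^ η := by
  classical
  obtain ⟨K, hK, h⟩ := fd_re q r C (ε / 2) η hq hr (half_pos hε) hη
  refine ⟨2 * K, ?_⟩
  intro E _ _ _ _ hE hE' G _ _ θ hθ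
  have h1 := h E hE hE' G θ hθ
  have h2 := h E hE hE' (G × ZMod 3) (fun p => (-(ZMod.stdAddChar (N := 3) p.2).im) • θ p.1) (by
    intro p
    rw [norm_smul, Real.norm_eq_abs, abs_neg]
    have h3 : |(ZMod.stdAddChar (N := 3) p.2).im| ≤ 1 := by
      refine (Complex.abs_im_le_norm _).trans ?_
      rw [AddChar.norm_apply]
    calc _ ≤ 1 * 1 := mul_le_mul h3 (hθ _) (norm_nonneg _) zero_le_one
      _ = 1 := one_mul 1)
  have hinj : Function.Injective fun b : AddChar G ℂ => prodChar b (ZMod.stdAddChar (N := 3)) := by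
    intro b b' hbb
    ext x
    have h3 := DFunLike.congr_fun hbb (x, 0)
    simp only [prodChar_apply, AddChar.map_zero_eq_one, mul_one] at h3
    exact h3
  have h3 : #(Finset.univ.filter fun b : AddChar G ℂ => ε ≤ ‖avg fun x => (b x).im • θ x‖) ≤
      #(Finset.univ.filter fun b : AddChar (G × ZMod 3) ℂ => ε / 2 ≤
        ‖avg fun p => (b p).re • ((-(ZMod.stdAddChar (N := 3) p.2).im) • θ p.1)‖) := by
    refine Finset.card_le_card_of_injOn (fun b => prodChar b (ZMod.stdAddChar (N := 3))) ?_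
      hinj.injOn
    intro b hb
    rw [Finset.mem_coe, Finset.mem_filter] at hb ⊢
    refine ⟨Finset.mem_univ _, ?_⟩
    rw [im_eq_re, norm_smul, Real.norm_of_nonneg (by norm_num)]
    linarith [hb.2]
  have h4 : #(Finset.univ.filter fun b : AddChar G ℂ => ε ≤ ‖avg fun x => (b x).re • θ x‖) ≤
      #(Finset.univ.filter fun b : AddChar G ℂ => ε / 2 ≤ ‖avg fun x => (b x).re • θ x‖) := by
    refine Finset.card_le_card fun b hb => ?_
    rw [Finset.mem_filter] at hb ⊢
    exact ⟨hb.1, (half_le_self hε.le).trans hb.2⟩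
  have h5 : #(Finset.univ.filter fun b : AddChar G ℂ =>
        ε ≤ ‖avg fun x => (b x).re • θ x‖ ∨ ε ≤ ‖avg fun x => (b x).im • θ x‖) ≤
      #(Finset.univ.filter fun b : AddChar G ℂ => ε ≤ ‖avg fun x => (b x).re • θ x‖) +
        #(Finset.univ.filter fun b : AddChar G ℂ => ε ≤ ‖avg fun x => (b x).im • θ x‖) := by
    rw [Finset.filter_or]
    exact Finset.card_union_le _ _
  have h6 : (#(Finset.univ.filter fun b : AddChar G ℂ =>
        ε ≤ ‖avg fun x => (b x).re • θ x‖ ∨ ε ≤ ‖avg fun x => (b x).im • θ x‖) : ℝ) ≤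
      (#(Finset.univ.filter fun b : AddChar G ℂ => ε / 2 ≤ ‖avg fun x => (b x).re • θ x‖) : ℝ) +
      (#(Finset.univ.filter fun b : AddChar (G × ZMod 3) ℂ => ε / 2 ≤
        ‖avg fun p => (b p).re • ((-(ZMod.stdAddChar (N := 3) p.2).im) • θ p.1)‖) : ℝ) := by
    exact_mod_cast h5.trans (Nat.add_le_add h4 h3)
  linarith

end Vale.Agent.P111.WF
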