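import Vale.Agent.P111.WF.Haar

/-!
Homogeneous Banach spaces on compact abelian groups.
-/

set_option linter.unusedSectionVars false

namespace Vale.Agent.P111.WF

open Finset Vale.Agent.P111 MeasureTheory Vale.Agent.P111.TK

universe u v

section

variable {G : Type u} [CommGroup G] [TopologicalSpace G] [IsTopologicalGroup G] [CompactSpace G]

/-- Trigonometric polynomials with frequencies in a finite set. -/
noncomputable def poly (D : Finset (G →ₜ* Circle)) : (D → ℂ) →ₗ[ℝ] (G → ℂ) where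
  toFun c x := ∑ K : D, c K * (starRingEnd ℂ) (K.1 x : ℂ)
  map_add' c c' := by
    funext x
    simp [add_mul, Finset.sum_add_distrib]
  map_smul' a c := by
    funext x
    simp only [Pi.smul_apply, RingHom.id_apply, Complex.real_smul, Finset.mul_sum, mul_assoc]

theorem single_mem (D : Finset (G →ₜ* Circle)) {K : G →ₜ* Circle} (hK : K ∈ D) (c : ℂ) :
    (fun x : G => c * (starRingEnd ℂ) (K x : ℂ)) ∈ LinearMap.range (poly D) := by
  classical
  refine ⟨Pi.single ⟨K, hK⟩ c, ?_⟩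
  funext x
  change ∑ K' : D, (Pi.single ⟨K, hK⟩ c : D → ℂ) K' * (starRingEnd ℂ) (K'.1 x : ℂ) = _
  rw [Finset.sum_eq_single ⟨K, hK⟩]
  · rw [Pi.single_eq_same]
  · intro b _ hb
    rw [Pi.single_eq_of_ne hb, zero_mul]
  · intro h
    exact absurd (Finset.mem_univ _) h

variable {E : Type v} [NormedAddCommGroup E] [NormedSpace ℝ E]

theorem finrank_conv (e : E →L[ℝ] C(G, ℂ)) (he : Function.Injective e)
    [MeasurableSpace G] [BorelSpace G] (μ : Measure G) [IsProbabilityMeasure μ]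
    [μ.IsMulLeftInvariant] (F : Finset (G →ₜ* Circle)) (T : E →L[ℝ] E)
    (hT : ∀ f x, e (T f) x = ∫ g, (ker F g : ℂ) * e f (x * g) ∂μ) :
    FiniteDimensional ℝ (LinearMap.range (T : E →ₗ[ℝ] E)) ∧
      Module.finrank ℝ (LinearMap.range (T : E →ₗ[ℝ] E)) ≤ 2 * #(dq F) := by
  classical
  have hmem : ∀ f, (fun x => e (T f) x) ∈ LinearMap.range (poly (dq F)) := by
    intro f
    have h1 : (fun x => e (T f) x) = ∑ a ∈ F, ∑ b ∈ F, fun x : G =>
        ((#F : ℂ)⁻¹ * ∫ g, ((a / b) g : ℂ) * e f g ∂μ) * (starRingEnd ℂ) ((a / b) x : ℂ) := by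
      funext x
      rw [Finset.sum_apply]
      have h2 : e (T f) x = ∫ g, (ker F (x⁻¹ * g) : ℂ) * e f g ∂μ := by
        rw [hT]
        have h3 := integral_mul_left_eq_self (μ := μ)
          (fun g => (ker F (x⁻¹ * g) : ℂ) * e f g) x
        simp only [inv_mul_cancel_left] at h3
        exact h3
      have h4 : ∀ g, (ker F (x⁻¹ * g) : ℂ) * e f g = ∑ a ∈ F, ∑ b ∈ F,
          ((#F : ℂ)⁻¹ * (starRingEnd ℂ) ((a / b) x : ℂ)) * (((a / b) g : ℂ) * e f g) := by
        intro g
        rw [ker_eq, mul_assoc, Finset.sum_mul, Finset.mul_sum]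
        refine Finset.sum_congr rfl fun a _ => ?_
        rw [Finset.sum_mul, Finset.mul_sum]
        refine Finset.sum_congr rfl fun b _ => ?_
        rw [map_mul, map_inv, Circle.coe_mul, Circle.coe_inv_eq_conj]
        ring
      rw [h2]
      simp only [h4]
      have hint : ∀ a b : G →ₜ* Circle, Integrable (fun g => ((#F : ℂ)⁻¹ *
          (starRingEnd ℂ) ((a / b) x : ℂ)) * (((a / b) g : ℂ) * e f g)) μ := fun a b =>
        integrable_cont (continuous_const.mul ((continuous_chi _).mul (e f).continuous))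
      rw [integral_finsetSum _ fun a _ => integrable_finsetSum _ fun b _ => hint a b]
      refine Finset.sum_congr rfl fun a _ => ?_
      rw [integral_finsetSum _ fun b _ => hint a b, Finset.sum_apply]
      refine Finset.sum_congr rfl fun b _ => ?_
      rw [integral_const_mul]
      ring
    rw [h1]
    refine Submodule.sum_mem _ fun a ha => Submodule.sum_mem _ fun b hb => ?_
    exact single_mem (dq F) (mem_dq.mpr ⟨a, ha, b, hb, rfl⟩) _
  let ev : E →ₗ[ℝ] (G → ℂ) :=
    { toFun := fun f x => e f x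
      map_add' := by intro f f'; funext x; simp
      map_smul' := by intro c f; funext x; simp }
  have hev : Function.Injective ev := by
    intro f f' h
    apply he
    ext x
    exact congrFun h x
  let j : LinearMap.range (T : E →ₗ[ℝ] E) →ₗ[ℝ] LinearMap.range (poly (dq F)) :=
    (ev ∘ₗ (LinearMap.range (T : E →ₗ[ℝ] E)).subtype).codRestrict _ (by
      rintro ⟨_, f, rfl⟩
      exact hmem f)
  have hj : Function.Injective j := by
    intro a b hab
    have h1 : ev a = ev b := congrArg Subtype.val hab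
    exact Subtype.ext (hev h1)
  have hfd : FiniteDimensional ℝ (LinearMap.range (T : E →ₗ[ℝ] E)) :=
    FiniteDimensional.of_injective j hj
  refine ⟨hfd, ?_⟩
  refine (LinearMap.finrank_le_finrank_of_injective hj).trans
    ((LinearMap.finrank_range_le _).trans (le_of_eq ?_))
  rw [Module.finrank_pi_fintype]
  simp [Complex.finrank_real_complex, mul_comm]

end

/-- The average of the square of the real part of a character is at least `1 / 2`. -/
theorem avg_re_sq {H : Type*} [AddCommGroup H] [Fintype H] (b : AddChar H ℂ) :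
    (1 / 2 : ℝ) ≤ avg fun x : H => (b x).re * (b x).re := by
  classical
  have h1 : ∀ x : H, (b x).re * (b x).re = 1 / 2 + 1 / 2 * ((b + b) x).re := by
    intro x
    have h2 : ‖b x‖ = 1 := AddChar.norm_apply b x
    have h3 : Complex.normSq (b x) = 1 := by rw [Complex.normSq_eq_norm_sq, h2, one_pow]
    rw [Complex.normSq_apply] at h3
    rw [AddChar.add_apply, Complex.mul_re]
    linarith
  simp only [h1]
  have h4 : (avg fun x : H => (1 / 2 : ℝ) + 1 / 2 * ((b + b) x).re) =
      1 / 2 + 1 / 2 * avg fun x : H => ((b + b) x).re := by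
    unfold avg
    rw [Finset.sum_add_distrib, ← Finset.mul_sum, smul_add, Finset.sum_const, Finset.card_univ]
    have h5 : (Fintype.card H : ℝ) ≠ 0 := by
      have : Fintype.card H ≠ 0 := Fintype.card_ne_zero
      exact_mod_cast this
    simp only [nsmul_eq_mul, smul_eq_mul]
    field_simp
  rw [h4, avg_re_char]
  split_ifs <;> norm_num

/-- **Homogeneous Banach spaces on compact abelian groups**: they contain a cotype obstruction. -/
theorem hom_main (q r : ℝ) (G : Type u) [CommGroup G] [TopologicalSpace G]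
    [IsTopologicalGroup G] [CompactSpace G] [Infinite (G →ₜ* Circle)]
    (E : Type v) [NormedAddCommGroup E] [NormedSpace ℝ E] [CompleteSpace E]
    (e : E →L[ℝ] C(G, ℂ)) (he : Function.Injective e)
    (τ : G → E → E) (hτ : ∀ g f x, e (τ g f) x = e f (x * g))
    (hn : ∀ g f, ‖τ g f‖ = ‖f‖) (hc : ∀ f, Continuous fun g => τ g f)
    (B : ℝ) (w : (G →ₜ* Circle) → E) (hw : ∀ J x, e (w J) x = ((J x : ℂ).re : ℂ))
    (hB : ∀ J, ‖w J‖ ≤ B) :
    ¬ (HasCotype q E ∧ HasCotype r (E →L[ℝ] ℝ)) := by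
  classical
  rintro ⟨⟨hq, C₁, hC₁⟩, ⟨hr, C₂, hC₂⟩⟩
  obtain ⟨C, hC⟩ : ∃ C : ℝ, C = max (max C₁ C₂) 1 := ⟨_, rfl⟩
  have hC1 : 1 ≤ C := hC ▸ le_max_right _ _
  have hCC₁ : C₁ ≤ C := hC ▸ (le_max_left _ _).trans (le_max_left _ _)
  have hCC₂ : C₂ ≤ C := hC ▸ (le_max_right _ _).trans (le_max_left _ _)
  have h1 : CotypeWith q C E := cotype_mono hC₁ hCC₁
  have h2 : CotypeWith r C (E →L[ℝ] ℝ) := cotype_mono hC₂ hCC₂
  obtain ⟨β, hβ⟩ : ∃ β : ℝ, β = ‖e‖ + 1 := ⟨_, rfl⟩
  have hβ0 : 0 < β := by rw [hβ]; positivity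
  obtain ⟨B', hB'⟩ : ∃ B' : ℝ, B' = max B 1 := ⟨_, rfl⟩
  have hB'1 : 1 ≤ B' := hB' ▸ le_max_right _ _
  have hB'0 : 0 < B' := by linarith
  have hBB' : ∀ J, ‖w J‖ ≤ B' := fun J => (hB J).trans (hB' ▸ le_max_left _ _)
  obtain ⟨ε, hε⟩ : ∃ ε : ℝ, ε = 1 / (8 * β * B') := ⟨_, rfl⟩
  have hε0 : 0 < ε := by rw [hε]; positivity
  obtain ⟨K, hK, hmain⟩ := op_main.{v} q r C ε 2 hq hr hε0
  obtain ⟨N, hN⟩ := exists_nat_gt (16 * K)
  obtain ⟨F, H, i₁, i₂, s, hF1, hF2, hF3, hF4⟩ := exists_sys (G := G) N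
  have hN0 : 0 < N := by
    have : (0:ℝ) < N := lt_trans (by positivity) hN
    exact_mod_cast this
  have hF0 : #F ≠ 0 := by omega
  have hF0' : (0:ℝ) < #F := by exact_mod_cast Nat.pos_of_ne_zero hF0
  let _ : MeasurableSpace G := borel _
  have _ : BorelSpace G := ⟨rfl⟩
  obtain ⟨μ, hμ⟩ : ∃ μ : Measure G, μ = Measure.haarMeasure ⊤ := ⟨_, rfl⟩
  have hμ1 : μ Set.univ = 1 := by
    have := Measure.haarMeasure_self (K₀ := (⊤ : TopologicalSpace.PositiveCompacts G))
    rw [hμ]
    simpa using this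
  have _ : IsProbabilityMeasure μ := ⟨hμ1⟩
  have _ : μ.IsMulLeftInvariant := by rw [hμ]; infer_instance
  obtain ⟨T, hT1, hT2⟩ := exists_conv e he τ hτ hn hc μ F hF0
  obtain ⟨hfd, hrank⟩ := finrank_conv e he μ F T hT2
  have hTn : ‖T‖ ≤ C := (ContinuousLinearMap.opNorm_le_bound _ zero_le_one
    fun f => by rw [one_mul]; exact hT1 f).trans hC1
  -- the values of `T` on the characters
  have hTw : ∀ J x, (e (T (w J)) x).re = (#F : ℝ)⁻¹ * rep F J * (J x : ℂ).re := by
    intro J x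
    rw [hT2]
    have h3 : ∫ g, (ker F g : ℂ) * ((J (x * g) : ℂ)) ∂μ = (#F : ℂ)⁻¹ * rep F J * (J x : ℂ) := by
      rw [← integral_ker_mul (μ := μ) F J, ← integral_mul_const]
      refine integral_congr_ae (Filter.Eventually.of_forall fun g => ?_)
      simp only [map_mul, Circle.coe_mul]
      ring
    have h4 : ∀ g, (ker F g : ℂ) * e (w J) (x * g) =
        (((ker F g : ℂ) * ((J (x * g) : ℂ))).re : ℂ) := by
      intro g
      rw [hw, Complex.re_ofReal_mul, Complex.ofReal_mul]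
    simp only [h4]
    rw [integral_complex_ofReal, Complex.ofReal_re]
    have h5 : Integrable (fun g => (ker F g : ℂ) * ((J (x * g) : ℂ))) μ :=
      integrable_cont ((Complex.continuous_ofReal.comp (continuous_ker F)).mul
        ((continuous_chi J).comp (continuous_const_mul x)))
    have h6 := Complex.reCLM.integral_comp_comm h5
    simp only [Complex.reCLM_apply] at h6
    rw [h6, h3]
    have h7 : ((#F : ℂ)⁻¹ * rep F J * (J x : ℂ)) =
        (((#F : ℝ)⁻¹ * rep F J : ℝ) : ℂ) * (J x : ℂ) := by push_cast; ring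
    rw [h7, Complex.re_ofReal_mul]
  -- the functionals
  let ev : G → (E →L[ℝ] ℝ) := fun x => Complex.reCLM.comp ((ContinuousMap.evalCLM ℝ x).comp e)
  have hev : ∀ x f, ev x f = (e f x).re := fun _ _ => rfl
  have hevn : ∀ x, ‖ev x‖ ≤ ‖e‖ := by
    intro x
    refine ContinuousLinearMap.opNorm_le_bound _ (norm_nonneg _) fun f => ?_
    rw [hev, Real.norm_eq_abs]
    exact (Complex.abs_re_le_norm _).trans (((e f).norm_coe_le_norm x).trans (e.le_opNorm f))
  let θ : H → (E →L[ℝ] ℝ) := fun x => β⁻¹ • ev (s x)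
  have hθ : ∀ x, ‖θ x‖ ≤ 1 := by
    intro x
    change ‖β⁻¹ • ev (s x)‖ ≤ 1
    rw [norm_smul, norm_inv, Real.norm_of_nonneg hβ0.le, inv_mul_le_iff₀ hβ0, mul_one, hβ]
    exact (hevn _).trans (by linarith)
  have hfin := hmain E T h1 h2 hTn hfd H θ hθ
  -- the characters
  have hch : ∀ J ∈ dq F, ∃ b : AddChar H ℂ, ∀ x, b x = (J (s x) : ℂ) := by
    intro J hJ
    have hJ0 : J (s 0) = 1 := by
      have h3 := hF3 J hJ 0 0
      rw [add_zero] at h3
      exact (mul_eq_left.mp h3.symm)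
    exact ⟨{ toFun := fun x => (J (s x) : ℂ)
             map_zero_eq_one' := by rw [hJ0, Circle.coe_one]
             map_add_eq_mul' := fun x y => by rw [hF3 J hJ x y, Circle.coe_mul] }, fun _ => rfl⟩
  choose! ch hch using hch
  obtain ⟨Λ, hΛ⟩ : ∃ Λ : Finset (G →ₜ* Circle),
      Λ = (dq F).filter fun J => (1 / 4 : ℝ) ≤ (#F : ℝ)⁻¹ * rep F J := ⟨_, rfl⟩
  have hΛ1 : (#F : ℝ) / 2 ≤ #Λ := hΛ ▸ card_large F hF2
  have hcard : #Λ ≤ #(Finset.univ.filter fun b => ε ≤ ‖fcr T θ b‖) := by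
    refine Finset.card_le_card_of_injOn ch ?_ ?_
    · intro J hJ
      rw [Finset.mem_coe, hΛ, Finset.mem_filter] at hJ
      rw [Finset.mem_coe, Finset.mem_filter]
      refine ⟨Finset.mem_univ _, ?_⟩
      have h3 : fcr T θ (ch J) (w J) = β⁻¹ * ((#F : ℝ)⁻¹ * rep F J) *
          avg fun x : H => ((ch J) x).re * ((ch J) x).re := by
        have h4 : fcr T θ (ch J) (w J) =
            avg fun x : H => ((ch J) x).re * (β⁻¹ * (e (T (w J)) (s x)).re) := by
          unfold fcr avg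
          rw [_root_.smul_apply, _root_.sum_apply]
          rfl
        rw [h4]
        unfold avg
        simp only [smul_eq_mul, Finset.mul_sum]
        refine Finset.sum_congr rfl fun x _ => ?_
        rw [hTw, hch J hJ.1 x]
        ring
      have h4 := avg_re_sq (ch J)
      have h5 : β⁻¹ * (1 / 4) * (1 / 2) ≤ fcr T θ (ch J) (w J) := by
        rw [h3]
        have : (0:ℝ) ≤ β⁻¹ := inv_nonneg.mpr hβ0.le
        refine mul_le_mul (mul_le_mul_of_nonneg_left hJ.2 this) h4 (by norm_num) ?_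
        exact mul_nonneg this (le_trans (by norm_num) hJ.2)
      have h6 : fcr T θ (ch J) (w J) ≤ ‖fcr T θ (ch J)‖ * B' :=
        (le_abs_self _).trans (((fcr T θ (ch J)).le_opNorm _).trans
          (mul_le_mul_of_nonneg_left (hBB' J) (norm_nonneg _)))
      have h7 : ε * B' = β⁻¹ * (1 / 4) * (1 / 2) := by
        rw [hε]
        field_simp
        norm_num
      exact le_of_mul_le_mul_right (by linarith) hB'0
    · intro J hJ J' hJ' h
      rw [Finset.mem_coe, hΛ, Finset.mem_filter] at hJ hJ'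
      refine hF4 J hJ.1 J' hJ'.1 fun x => ?_
      apply Circle.coe_injective
      rw [← hch J hJ.1 x, ← hch J' hJ'.1 x, h]
  have h3 : ((#F : ℝ) / 2) ^ 2 ≤ K * max 1
      (Module.finrank ℝ (LinearMap.range (T : E →ₗ[ℝ] E)) : ℝ) := by
    refine le_trans (pow_le_pow_left₀ (by positivity) ?_ 2) hfin
    exact hΛ1.trans (by exact_mod_cast hcard)
  have h4 : max 1 (Module.finrank ℝ (LinearMap.range (T : E →ₗ[ℝ] E)) : ℝ) ≤ 4 * #F := by
    refine max_le ?_ ?_
    · have : (1:ℝ) ≤ #F := by exact_mod_cast Nat.one_le_iff_ne_zero.mpr hF0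
      linarith
    · have h5 : Module.finrank ℝ (LinearMap.range (T : E →ₗ[ℝ] E)) ≤ 4 * #F := by omega
      exact_mod_cast h5
  have h5 : ((#F : ℝ) / 2) ^ 2 ≤ K * (4 * #F) :=
    h3.trans (mul_le_mul_of_nonneg_left h4 hK.le)
  have h6 : (#F : ℝ) ≤ 16 * K := by
    have h7 : (#F : ℝ) * #F ≤ (16 * K) * #F := by nlinarith
    exact le_of_mul_le_mul_right h7 hF0'
  have h7 : (N : ℝ) ≤ #F := by exact_mod_cast hF1
  linarith

end Vale.Agent.P111.WF
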