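import Vale.Agent.P111.WF.Exp
import Vale.Agent.P111.TW.Count
import Mathlib.Analysis.Fourier.FiniteAbelian.PontryaginDuality

/-!
Fourier systems: real parts of the characters of a finite abelian group.
-/

set_option linter.unusedSectionVars false

namespace Vale.Agent.P111.WF

open Finset Vale.Agent.P111 Vale.Agent.P111.TW

section Complex

theorem avgC_pi_prod {I : Type*} [Fintype I] [DecidableEq I] {α : Type*} [Fintype α]
    (f : I → α → ℂ) :
    (avg fun ω : I → α => ∏ i, f i (ω i)) = ∏ i, avg (f i) := by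
  simp only [avg, Complex.real_smul]
  rw [Finset.prod_mul_distrib, Finset.prod_const, Finset.card_univ, Fintype.card_fun,
    ← Fintype.piFinset_univ, ← Finset.prod_univ_sum]
  push_cast
  rw [inv_pow]

theorem avgC_units (f : ℤˣ → ℂ) : avg f = (f 1 + f (-1)) / 2 := by
  simp only [avg, Fintype.card_units_int, Complex.real_smul]
  rw [show (Finset.univ : Finset ℤˣ) = {1, -1} from rfl, Finset.sum_pair (by decide)]
  push_cast
  ring

theorem re_avg {Ω : Type*} [Fintype Ω] (f : Ω → ℂ) : (avg f).re = avg fun ω => (f ω).re := by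
  simp only [avg, Complex.real_smul, smul_eq_mul, Complex.re_ofReal_mul, Complex.re_sum]

theorem im_avg {Ω : Type*} [Fintype Ω] (f : Ω → ℂ) : (avg f).im = avg fun ω => (f ω).im := by
  simp only [avg, Complex.real_smul, smul_eq_mul, Complex.im_ofReal_mul, Complex.im_sum]

end Complex

section Char

variable {H : Type*} [AddCommGroup H] [Fintype H]

theorem abs_re_char (b : AddChar H ℂ) (x : H) : |(b x).re| ≤ 1 :=
  (Complex.abs_re_le_norm _).trans (b.norm_apply x).le

theorem avg_char (b : AddChar H ℂ) : (avg fun x : H => b x) = if b = 0 then 1 else 0 := by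
  classical
  simp only [avg, Complex.real_smul]
  rw [AddChar.sum_eq_ite]
  split_ifs with h
  · push_cast
    rw [inv_mul_cancel₀]
    exact_mod_cast Fintype.card_ne_zero
  · rw [mul_zero]

theorem avg_re_char (b : AddChar H ℂ) : (avg fun x : H => (b x).re) = if b = 0 then 1 else 0 := by
  rw [← re_avg (fun x => b x), avg_char]
  split_ifs <;> simp

theorem avg_im_char (b : AddChar H ℂ) : (avg fun x : H => (b x).im) = 0 := by
  rw [← im_avg (fun x => b x), avg_char]
  split_ifs <;> simp

theorem neg_char_apply (b : AddChar H ℂ) (x : H) : (-b) x = (starRingEnd ℂ) (b x) := by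
  rw [AddChar.neg_apply', AddChar.inv_apply_eq_conj]

/-- The Hartley functions. -/
noncomputable def hart (b : AddChar H ℂ) (x : H) : ℝ := (b x).re + (b x).im

theorem hart_neg (b : AddChar H ℂ) (x : H) : hart (-b) x = (b x).re - (b x).im := by
  rw [hart, neg_char_apply, Complex.conj_re, Complex.conj_im]
  ring

theorem re_eq_hart (b : AddChar H ℂ) (x : H) : (b x).re = (hart b x + hart (-b) x) / 2 := by
  rw [hart_neg, hart]
  ring

theorem avg_hart_mul_hart (b b' : AddChar H ℂ) :
    (avg fun x : H => hart b x * hart b' x) = if b = b' then 1 else 0 := by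
  have h1 : ∀ x : H, hart b x * hart b' x = ((b - b') x).re + ((b + b') x).im := by
    intro x
    have h2 : (b - b') x = b x * (starRingEnd ℂ) (b' x) := by
      rw [sub_eq_add_neg, AddChar.add_apply, neg_char_apply]
    rw [h2, AddChar.add_apply, hart, hart, Complex.mul_re, Complex.mul_im, Complex.conj_re,
      Complex.conj_im]
    ring
  simp only [h1]
  rw [avg_add, avg_re_char, avg_im_char, add_zero]
  simp only [sub_eq_zero]

/-- The counting lemma for the real parts of the characters. -/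
theorem count_re {W : Type*} [NormedAddCommGroup W] [NormedSpace ℝ W] (Y : Submodule ℝ W)
    [FiniteDimensional ℝ Y] {B e : ℝ} (he : 0 < e) (ν : H → W) (hY : ∀ ω, ν ω ∈ Y)
    (hB : ∀ ω, ‖ν ω‖ ≤ B) :
    (#{b : AddChar H ℂ | e < ‖avg fun x => (b x).re • ν x‖} : ℝ) * e ^ 2 ≤
      2 * ((Module.finrank ℝ Y : ℝ) * B ^ 2) := by
  classical
  set S : Finset (AddChar H ℂ) := {b | e < ‖avg fun x => hart b x • ν x‖} with hS
  have hc := count Y he ν hY hB (fun b : AddChar H ℂ => hart b) avg_hart_mul_hart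
  have hsub : (Finset.univ.filter fun b : AddChar H ℂ => e < ‖avg fun x => (b x).re • ν x‖) ⊆
      S ∪ S.image (fun b => -b) := by
    intro b hb
    rw [Finset.mem_filter] at hb
    rw [Finset.mem_union]
    by_contra hcon
    rw [not_or] at hcon
    obtain ⟨h1, h2⟩ := hcon
    have h3 : ‖avg fun x => hart b x • ν x‖ ≤ e := by
      by_contra h
      exact h1 (Finset.mem_filter.mpr ⟨Finset.mem_univ _, not_le.mp h⟩)
    have h4 : ‖avg fun x => hart (-b) x • ν x‖ ≤ e := by
      by_contra h
      refine h2 (Finset.mem_image.mpr ⟨-b, ?_, neg_neg b⟩)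
      exact Finset.mem_filter.mpr ⟨Finset.mem_univ _, not_le.mp h⟩
    have h5 : (avg fun x => (b x).re • ν x) =
        (1 / 2 : ℝ) • ((avg fun x => hart b x • ν x) + avg fun x => hart (-b) x • ν x) := by
      rw [← avg_add, ← avg_smul]
      refine avg_congr fun x => ?_
      rw [re_eq_hart, ← add_smul, smul_smul]
      congr 1
      ring
    have h6 := hb.2
    rw [h5, norm_smul] at h6
    have h7 := norm_add_le (avg fun x => hart b x • ν x) (avg fun x => hart (-b) x • ν x)
    have h8 : ‖(1 / 2 : ℝ)‖ = 1 / 2 := by norm_num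
    rw [h8] at h6
    linarith
  have hcard : (#(Finset.univ.filter fun b : AddChar H ℂ =>
      e < ‖avg fun x => (b x).re • ν x‖) : ℝ) ≤ 2 * #S := by
    have h1 : #(Finset.univ.filter fun b : AddChar H ℂ => e < ‖avg fun x => (b x).re • ν x‖) ≤
        #S + #S :=
      (Finset.card_le_card hsub).trans ((Finset.card_union_le _ _).trans
        (Nat.add_le_add_left Finset.card_image_le _))
    have h2 : (#(Finset.univ.filter fun b : AddChar H ℂ =>
      e < ‖avg fun x => (b x).re • ν x‖) : ℝ) ≤ ((#S + #S : ℕ) : ℝ) := by exact_mod_cast h1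
    rw [Nat.cast_add] at h2
    linarith
  have he2 : 0 ≤ e ^ 2 := sq_nonneg e
  calc (#(Finset.univ.filter fun b : AddChar H ℂ =>
      e < ‖avg fun x => (b x).re • ν x‖) : ℝ) * e ^ 2 ≤ (2 * #S) * e ^ 2 :=
        mul_le_mul_of_nonneg_right hcard he2
    _ = 2 * (#S * e ^ 2) := by ring
    _ ≤ _ := mul_le_mul_of_nonneg_left hc (by norm_num)

end Char

section Power

variable {G : Type*} [AddCommGroup G] [Fintype G] {M M' : ℕ}

/-- The character of the power. -/
def pc (b : Fin M' → AddChar G ℂ) : AddChar (Fin M' → G) ℂ where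
  toFun x := ∏ k, b k (x k)
  map_zero_eq_one' := by simp
  map_add_eq_mul' x y := by
    simp only [Pi.add_apply, AddChar.map_add_eq_mul]
    exact Finset.prod_mul_distrib

theorem pc_apply (b : Fin M' → AddChar G ℂ) (x : Fin M' → G) : pc b x = ∏ k, b k (x k) := rfl

theorem pc_injective : Function.Injective (pc : (Fin M' → AddChar G ℂ) → _) := by
  classical
  intro b b' h
  funext k
  ext z
  have h1 := DFunLike.congr_fun h (Pi.single k z)
  rw [pc_apply, pc_apply] at h1
  have h2 : ∀ c : Fin M' → AddChar G ℂ, ∏ l, c l ((Pi.single k z : Fin M' → G) l) = c k z := by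
    intro c
    rw [Finset.prod_eq_single k]
    · rw [Pi.single_eq_same]
    · intro l _ hl
      rw [Pi.single_eq_of_ne hl, AddChar.map_zero_eq_one]
    · intro hk
      exact absurd (Finset.mem_univ _) hk
  rwa [h2, h2] at h1

/-- The signed sums of the frequencies. -/
def ssum (J : Fin M → AddChar G ℂ) (T : Finset (Fin M)) (σ : Fin M → ℤˣ) : AddChar G ℂ :=
  ∑ i ∈ T, ((σ i : ℤˣ) : ℤ) • J i

theorem ssum_apply (J : Fin M → AddChar G ℂ) (T : Finset (Fin M)) (σ : Fin M → ℤˣ) (z : G) :
    ssum J T σ z = ∏ i ∈ T, J i z ^ ((σ i : ℤˣ) : ℤ) := by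
  rw [ssum, AddChar.sum_apply]
  exact Finset.prod_congr rfl fun i _ => AddChar.zsmul_apply _ _ _

theorem avg_zpow (b : AddChar G ℂ) (z : G) :
    (avg fun u : ℤˣ => b z ^ (u : ℤ)) = (((b z).re : ℝ) : ℂ) := by
  rw [avgC_units]
  simp only [Units.val_one, zpow_one, Units.val_neg, zpow_neg]
  rw [AddChar.inv_apply_eq_conj, Complex.add_conj]
  push_cast
  ring

theorem prod_re (J : Fin M → AddChar G ℂ) (T : Finset (Fin M)) (z : G) :
    (((∏ i ∈ T, (J i z).re : ℝ)) : ℂ) = avg fun σ : Fin M → ℤˣ => ssum J T σ z := by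
  classical
  have h1 : ∀ σ : Fin M → ℤˣ, ssum J T σ z =
      ∏ i, if i ∈ T then J i z ^ ((σ i : ℤˣ) : ℤ) else 1 := by
    intro σ
    rw [ssum_apply, ← Finset.prod_filter]
    congr 1
    ext i
    simp
  rw [avg_congr h1, avgC_pi_prod (fun i (u : ℤˣ) => if i ∈ T then J i z ^ (u : ℤ) else 1)]
  have h2 : ∀ i, (avg fun u : ℤˣ => if i ∈ T then J i z ^ (u : ℤ) else (1:ℂ)) =
      if i ∈ T then (((J i z).re : ℝ) : ℂ) else 1 := by
    intro i
    split_ifs with hi
    · exact avg_zpow _ _
    · exact avg_const _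
  rw [Finset.prod_congr rfl fun i _ => h2 i, ← Finset.prod_filter]
  push_cast
  congr 1
  ext i
  simp

theorem prod_re' (J : Fin M → AddChar G ℂ) (T : Finset (Fin M)) (z : G) :
    ∏ i ∈ T, (J i z).re = avg fun σ : Fin M → ℤˣ => (ssum J T σ z).re := by
  rw [← re_avg, ← prod_re, Complex.ofReal_re]

theorem avg_prod_re_eq_zero {J : Fin M → AddChar G ℂ} {T : Finset (Fin M)}
    (hJ : ∀ σ : Fin M → ℤˣ, ssum J T σ ≠ 0) : (avg fun z : G => ∏ i ∈ T, (J i z).re) = 0 := by
  simp only [prod_re']
  rw [avg_comm]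
  have : ∀ σ : Fin M → ℤˣ, (avg fun z : G => (ssum J T σ z).re) = 0 := by
    intro σ
    rw [avg_re_char, if_neg (hJ σ)]
  rw [avg_congr this, avg_zero]

theorem PP_re (J : Fin M → AddChar G ℂ) (g : Fin M' → Finset (Fin M)) (x : Fin M' → G) :
    PP (fun i z => (J i z).re) g x =
      avg fun σ : Fin M' → Fin M → ℤˣ => (pc (fun k => ssum J (g k) (σ k)) x).re := by
  classical
  have h1 : ((PP (fun i z => (J i z).re) g x : ℝ) : ℂ) =
      avg fun σ : Fin M' → Fin M → ℤˣ => pc (fun k => ssum J (g k) (σ k)) x := by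
    simp only [pc_apply]
    rw [avgC_pi_prod (fun k (s : Fin M → ℤˣ) => ssum J (g k) s (x k)), PP]
    push_cast
    refine Finset.prod_congr rfl fun k _ => ?_
    rw [← prod_re]
    push_cast
    rfl
  rw [← re_avg, ← h1, Complex.ofReal_re]

/-- The coefficients of a product of real parts are averages of coefficients. -/
theorem norm_avg_PP_le {E : Type*} [NormedAddCommGroup E] [NormedSpace ℝ E]
    (J : Fin M → AddChar G ℂ) (g : Fin M' → Finset (Fin M)) (w : (Fin M' → G) → E) {e' : ℝ}
    (h : ∀ σ : Fin M' → Fin M → ℤˣ,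
      ‖avg fun x => (pc (fun k => ssum J (g k) (σ k)) x).re • w x‖ ≤ e') :
    ‖avg fun x => PP (fun i z => (J i z).re) g x • w x‖ ≤ e' := by
  have h1 : (avg fun x => PP (fun i z => (J i z).re) g x • w x) =
      avg fun σ : Fin M' → Fin M → ℤˣ => avg fun x =>
        (pc (fun k => ssum J (g k) (σ k)) x).re • w x := by
    rw [avg_comm]
    refine avg_congr fun x => ?_
    rw [PP_re]
    simp only [avg]
    rw [smul_eq_mul, mul_smul, Finset.sum_smul]
  rw [h1]
  exact TK.norm_avg_le' _ _ h

end Power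

end Vale.Agent.P111.WF
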