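import Vale.Agent.P111.TW.Asm

/-!
Fourier systems: expansion of the pairing and the hypotheses of the core estimate, for arbitrary
real functions `ρ i` with values in `[-1, 1]` in place of characters.
-/

set_option linter.unusedSectionVars false

namespace Vale.Agent.P111.WF

open Finset Vale.Agent.P111 Vale.Agent.P111.TK Vale.Agent.P111.TW

section Exp

variable {M M' : ℕ} {Ω : Type*} [Fintype Ω] [Nonempty Ω] {Y : Type*} [NormedAddCommGroup Y]
  [NormedSpace ℝ Y]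

/-- The weight. -/
noncomputable def wt (ρ : Fin M → Ω → ℝ) (x : Fin M' → Ω) (a : Fin M → Fin M' → ℤˣ) : ℝ :=
  ∏ k, ∏ i, (1 + sg (a i k) * ρ i (x k))

theorem wt_nonneg {ρ : Fin M → Ω → ℝ} (hρ : ∀ i z, |ρ i z| ≤ 1) (x : Fin M' → Ω)
    (a : Fin M → Fin M' → ℤˣ) : 0 ≤ wt ρ x a := by
  refine Finset.prod_nonneg fun k _ => Finset.prod_nonneg fun i _ => ?_
  have h1 : |sg (a i k) * ρ i (x k)| ≤ 1 := by
    rw [abs_mul, abs_sg, one_mul]
    exact hρ i (x k)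
  linarith [(abs_le.mp h1).1]

theorem avg_wt {ρ : Fin M → Ω → ℝ}
    (hρ0 : ∀ T : Finset (Fin M), T.Nonempty → (avg fun z => ∏ i ∈ T, ρ i z) = 0)
    (a : Fin M → Fin M' → ℤˣ) : (avg fun x : Fin M' → Ω => wt ρ x a) = 1 := by
  classical
  unfold wt
  rw [avg_pi_prod (fun k (z : Ω) => ∏ i, (1 + sg (a i k) * ρ i z))]
  refine Finset.prod_eq_one fun k _ => ?_
  have h1 : ∀ z : Ω, ∏ i, (1 + sg (a i k) * ρ i z) =
      ∑ T : Finset (Fin M), (∏ i ∈ T, sg (a i k)) * ∏ i ∈ T, ρ i z := by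
    intro z
    rw [Finset.prod_one_add]
    exact Finset.sum_congr rfl fun T _ => Finset.prod_mul_distrib
  simp only [h1]
  rw [avg_sum, Finset.sum_eq_single ∅]
  · simp only [Finset.prod_empty, mul_one]
    exact avg_const _
  · intro T _ hT
    rw [avg_mul_left, hρ0 T (Finset.nonempty_iff_ne_empty.mpr hT), mul_zero]
  · intro h
    exact absurd (Finset.mem_univ _) h

/-- The products of the functions `ρ i`. -/
noncomputable def PP (ρ : Fin M → Ω → ℝ) (g : Fin M' → Finset (Fin M)) (x : Fin M' → Ω) : ℝ :=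
  ∏ k, ∏ i ∈ g k, ρ i (x k)

/-- The coefficients of the Walsh coefficients. -/
noncomputable def nh (ρ : Fin M → Ω → ℝ) (ν : (Fin M' → Ω) → (Fin M' → ℤˣ) → Y)
    (U : Finset (Fin M')) (g : Fin M' → Finset (Fin M)) : Y :=
  avg fun x : Fin M' → Ω => PP ρ g x • wc U (ν x)

/-- The pairing. -/
noncomputable def beta (ρ : Fin M → Ω → ℝ) (Z : (Fin M → ℤˣ) → (Y →L[ℝ] ℝ))
    (ν : (Fin M' → Ω) → (Fin M' → ℤˣ) → Y) (A : Fin M → Fin M' → ℤˣ) : ℝ :=
  avg fun ε : Fin M → ℤˣ => avg fun δ : Fin M' → ℤˣ => avg fun x : Fin M' → Ω =>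
    wt ρ x (fun i k => A i k * ε i * δ k) * Z ε (ν x δ)

theorem wt_expand (ρ : Fin M → Ω → ℝ) (x : Fin M' → Ω)
    (A : Fin M → Fin M' → ℤˣ) (ε : Fin M → ℤˣ) (δ : Fin M' → ℤˣ) :
    wt ρ x (fun i k => A i k * ε i * δ k) = ∑ g : Fin M' → Finset (Fin M),
      (∏ k, ∏ i ∈ g k, sg (A i k)) * (walsh (oddT g) ε * walsh (oddU g) δ * PP ρ g x) := by
  unfold wt
  have h1 : ∀ k, ∏ i, (1 + sg (A i k * ε i * δ k) * ρ i (x k)) =
      ∑ T : Finset (Fin M), ∏ i ∈ T, (sg (A i k * ε i * δ k) * ρ i (x k)) := by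
    intro k
    exact Finset.prod_one_add _
  rw [Finset.prod_congr rfl fun k _ => h1 k, Finset.prod_univ_sum, Fintype.piFinset_univ]
  refine Finset.sum_congr rfl fun g _ => ?_
  rw [← prod_rows, ← prod_cols, PP, ← Finset.prod_mul_distrib, ← Finset.prod_mul_distrib,
    ← Finset.prod_mul_distrib]
  refine Finset.prod_congr rfl fun k _ => ?_
  rw [← Finset.prod_mul_distrib, ← Finset.prod_mul_distrib, ← Finset.prod_mul_distrib]
  refine Finset.prod_congr rfl fun i _ => ?_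
  rw [sg_mul, sg_mul]
  ring

theorem beta_expand (ρ : Fin M → Ω → ℝ) (Z : (Fin M → ℤˣ) → (Y →L[ℝ] ℝ))
    (ν : (Fin M' → Ω) → (Fin M' → ℤˣ) → Y) (A : Fin M → Fin M' → ℤˣ) :
    beta ρ Z ν A = ∑ g : Fin M' → Finset (Fin M),
      (∏ k, ∏ i ∈ g k, sg (A i k)) * (wc (oddT g) Z) (nh ρ ν (oddU g) g) := by
  have h1 : ∀ g : Fin M' → Finset (Fin M), (wc (oddT g) Z) (nh ρ ν (oddU g) g) =
      avg fun ε : Fin M → ℤˣ => avg fun δ : Fin M' → ℤˣ => avg fun x : Fin M' → Ω =>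
        walsh (oddT g) ε * walsh (oddU g) δ * PP ρ g x * Z ε (ν x δ) := by
    intro g
    rw [wc_apply']
    refine avg_congr fun ε => ?_
    rw [nh, clm_avg, ← avg_mul_left, avg_comm]
    refine avg_congr fun x => ?_
    rw [map_smul, smul_eq_mul, wc, clm_avg, ← avg_mul_left, ← avg_mul_left]
    refine avg_congr fun δ => ?_
    rw [map_smul, smul_eq_mul]
    ring
  unfold beta
  simp only [wt_expand, Finset.sum_mul]
  simp only [avg_sum]
  refine Finset.sum_congr rfl fun g _ => ?_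
  rw [h1, ← avg_mul_left]
  refine avg_congr fun ε => ?_
  rw [← avg_mul_left]
  refine avg_congr fun δ => ?_
  rw [← avg_mul_left]
  refine avg_congr fun x => ?_
  ring

theorem abs_beta_le {ρ : Fin M → Ω → ℝ} (hρ : ∀ i z, |ρ i z| ≤ 1)
    (hρ0 : ∀ T : Finset (Fin M), T.Nonempty → (avg fun z => ∏ i ∈ T, ρ i z) = 0)
    {Z : (Fin M → ℤˣ) → (Y →L[ℝ] ℝ)} {ν : (Fin M' → Ω) → (Fin M' → ℤˣ) → Y}
    {β₁ β₂ : ℝ} (hZ : ∀ ε, ‖Z ε‖ ≤ β₁) (hν : ∀ x δ, ‖ν x δ‖ ≤ β₂) (A : Fin M → Fin M' → ℤˣ) :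
    |beta ρ Z ν A| ≤ β₁ * β₂ := by
  have hβ₁ : 0 ≤ β₁ := (norm_nonneg _).trans (hZ 1)
  unfold beta
  refine abs_avg_le_const fun ε => abs_avg_le_const fun δ => ?_
  refine (abs_avg_le _).trans ?_
  have h1 : ∀ x : Fin M' → Ω, |wt ρ x (fun i k => A i k * ε i * δ k) * Z ε (ν x δ)| ≤
      wt ρ x (fun i k => A i k * ε i * δ k) * (β₁ * β₂) := by
    intro x
    rw [abs_mul, abs_of_nonneg (wt_nonneg hρ _ _)]
    refine mul_le_mul_of_nonneg_left ?_ (wt_nonneg hρ _ _)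
    rw [← Real.norm_eq_abs]
    exact ((Z ε).le_opNorm _).trans (mul_le_mul (hZ ε) (hν x δ) (norm_nonneg _) hβ₁)
  refine (avg_mono h1).trans (le_of_eq ?_)
  rw [avg_mul_right, avg_wt hρ0, one_mul]

/-- The coefficients of the bicliques. -/
noncomputable def kap (ρ : Fin M → Ω → ℝ) (Z : (Fin M → ℤˣ) → (Y →L[ℝ] ℝ))
    (ν : (Fin M' → Ω) → (Fin M' → ℤˣ) → Y) (T : Finset (Fin M)) (U : Finset (Fin M')) :
    ℝ := (wc T Z) (nh ρ ν U (bic T U))

theorem nh_even {ρ : Fin M → Ω → ℝ} {ν : (Fin M' → Ω) → (Fin M' → ℤˣ) → Y}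
    (hνo : ∀ x δ, ν x (-δ) = - ν x δ) {U : Finset (Fin M')} (hU : Even #U)
    (g : Fin M' → Finset (Fin M)) : nh ρ ν U g = 0 := by
  unfold nh
  have : ∀ x : Fin M' → Ω, PP ρ g x • wc U (ν x) = 0 := by
    intro x
    rw [wc_even (ν x) (hνo x) U hU, smul_zero]
  rw [avg_congr this, avg_zero]

/-- Only the bicliques matter. -/
theorem beta_approx {ρ : Fin M → Ω → ℝ} {Z : (Fin M → ℤˣ) → (Y →L[ℝ] ℝ)}
    {ν : (Fin M' → Ω) → (Fin M' → ℤˣ) → Y} {β₁ e' : ℝ} (hZ : ∀ ε, ‖Z ε‖ ≤ β₁)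
    (he' : 0 ≤ e') (hZo : ∀ ε, Z (-ε) = - Z ε) (hνo : ∀ x δ, ν x (-δ) = - ν x δ)
    (hJ : ∀ g : Fin M' → Finset (Fin M), Two g → ‖nh ρ ν (oddU g) g‖ ≤ e')
    (A : Fin M → Fin M' → ℤˣ) :
    |beta ρ Z ν A - ∑ T, ∑ U, kap ρ Z ν T U * walsh U (fun k => ∏ i ∈ T, A i k)| ≤
      (2 ^ M) ^ M' * (β₁ * e') := by
  classical
  have hβ₁ : 0 ≤ β₁ := (norm_nonneg _).trans (hZ 1)
  set a : (Fin M' → Finset (Fin M)) → ℝ := fun g =>
    (∏ k, ∏ i ∈ g k, sg (A i k)) * (wc (oddT g) Z) (nh ρ ν (oddU g) g) with ha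
  set P : Finset (Finset (Fin M) × Finset (Fin M')) :=
    Finset.univ.filter fun p => Odd #p.1 ∧ Odd #p.2 with hP
  have h1 : ∑ T, ∑ U, kap ρ Z ν T U * walsh U (fun k => ∏ i ∈ T, A i k) =
      ∑ p ∈ P, a (bic p.1 p.2) := by
    rw [← Finset.sum_product', hP, Finset.sum_filter]
    refine Finset.sum_congr rfl fun p _ => ?_
    obtain ⟨T, U⟩ := p
    simp only
    split_ifs with hp
    · simp only [ha]
      rw [oddT_bic, oddU_bic, if_pos hp.1, if_pos hp.2, kap, mul_comm]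
      congr 1
      rw [walsh]
      have h2 : ∀ k, ∏ i ∈ bic T U k, sg (A i k) =
          if k ∈ U then sg (∏ i ∈ T, A i k) else 1 := by
        intro k
        simp only [bic]
        split_ifs with hk
        · rw [H1.sg_prod]
        · simp
      rw [Finset.prod_congr rfl fun k _ => h2 k, ← Finset.prod_filter]
      congr 1
      ext k
      simp
    · rw [kap]
      rw [not_and_or, Nat.not_odd_iff_even, Nat.not_odd_iff_even] at hp
      rcases hp with hp | hp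
      · rw [wc_even Z hZo T hp, _root_.zero_apply, zero_mul]
      · rw [nh_even hνo hp, map_zero, zero_mul]
  have h2 : ∑ p ∈ P, a (bic p.1 p.2) = ∑ g ∈ P.image (fun p => bic p.1 p.2), a g := by
    rw [Finset.sum_image]
    intro p hp p' hp' h
    refine bic_injOn ?_ ?_ h
    · simp only [hP, Finset.coe_filter, Finset.mem_univ, true_and, Set.mem_ofPred_eq] at hp
      exact ⟨Finset.card_pos.mp hp.1.pos, Finset.card_pos.mp hp.2.pos⟩
    · simp only [hP, Finset.coe_filter, Finset.mem_univ, true_and, Set.mem_ofPred_eq] at hp'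
      exact ⟨Finset.card_pos.mp hp'.1.pos, Finset.card_pos.mp hp'.2.pos⟩
  have h3 : beta ρ Z ν A - ∑ g ∈ P.image (fun p => bic p.1 p.2), a g =
      ∑ g ∈ (P.image (fun p => bic p.1 p.2))ᶜ, a g := by
    rw [beta_expand, ← Finset.sum_add_sum_compl (P.image (fun p => bic p.1 p.2)) a]
    ring
  have hsgn : ∀ g : Fin M' → Finset (Fin M), |∏ k, ∏ i ∈ g k, sg (A i k)| = 1 := by
    intro g
    rw [Finset.abs_prod]
    refine Finset.prod_eq_one fun k _ => ?_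
    rw [Finset.abs_prod]
    exact Finset.prod_eq_one fun i _ => abs_sg _
  have h4 : ∀ g ∈ (P.image (fun p => bic p.1 p.2))ᶜ, |a g| ≤ β₁ * e' := by
    intro g hg
    simp only [ha]
    rw [abs_mul, hsgn, one_mul]
    rcases two_or_bic g with h | ⟨T, U, rfl⟩
    · rw [← Real.norm_eq_abs]
      exact ((wc (oddT g) Z).le_opNorm _).trans
        (mul_le_mul (norm_wc_le _ _ hZ) (hJ g h) (norm_nonneg _) hβ₁)
    · have h0 : (wc (oddT (bic T U)) Z) (nh ρ ν (oddU (bic T U)) (bic T U)) = 0 := by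
        rw [Finset.mem_compl, Finset.mem_image] at hg
        push Not at hg
        have h5 : ¬ (Odd #T ∧ Odd #U) := by
          intro h6
          exact hg (T, U) (by simp [hP, h6]) rfl
        rw [not_and_or] at h5
        rcases h5 with h5 | h5
        · have : oddU (bic T U) = ∅ := by rw [oddU_bic, if_neg h5]
          rw [this, nh_even hνo (by simp), map_zero]
        · have : oddT (bic T U) = ∅ := by rw [oddT_bic, if_neg h5]
          rw [this, wc_even Z hZo ∅ (by simp), _root_.zero_apply]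
      rw [h0, abs_zero]
      positivity
  rw [h1, h2, h3]
  refine (Finset.abs_sum_le_sum_abs _ _).trans ?_
  refine (Finset.sum_le_sum h4).trans ?_
  rw [Finset.sum_const, nsmul_eq_mul]
  refine mul_le_mul_of_nonneg_right ?_ (by positivity)
  have h6 : #((P.image (fun p => bic p.1 p.2))ᶜ) ≤ (2 ^ M) ^ M' := by
    refine (Finset.card_le_univ _).trans (le_of_eq ?_)
    rw [Fintype.card_fun, Fintype.card_finset, Fintype.card_fin, Fintype.card_fin]
  exact_mod_cast h6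

end Exp

section Asm

variable {M M' : ℕ} {Ω : Type*} [Fintype Ω] [Nonempty Ω] {Y : Type*} [NormedAddCommGroup Y]
  [NormedSpace ℝ Y]

/-- The multilinear extension. -/
theorem mult_ext {E : Type*} [AddCommGroup E] [Module ℝ E] (Z : (Fin M → ℤˣ) → E)
    (t : Fin M → ℝ) :
    ∑ T : Finset (Fin M), (∏ i ∈ T, t i) • wc T Z =
      avg fun ε : Fin M → ℤˣ => (∏ i, (1 + t i * sg (ε i))) • Z ε := by
  have h1 : ∀ T : Finset (Fin M), (∏ i ∈ T, t i) • wc T Z =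
      avg fun ε : Fin M → ℤˣ => ((∏ i ∈ T, t i) * walsh T ε) • Z ε := by
    intro T
    rw [wc, ← avg_smul]
    refine avg_congr fun ε => ?_
    rw [smul_smul]
  rw [Finset.sum_congr rfl fun T _ => h1 T, ← avg_sum]
  refine avg_congr fun ε => ?_
  rw [← Finset.sum_smul, Finset.prod_one_add]
  congr 1
  refine Finset.sum_congr rfl fun T _ => ?_
  rw [walsh, ← Finset.prod_mul_distrib]

theorem avg_riesz (t : Fin M → ℝ) :
    (avg fun ε : Fin M → ℤˣ => ∏ i, (1 + t i * sg (ε i))) = 1 := by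
  rw [avg_pi_prod (fun i (u : ℤˣ) => 1 + t i * sg u)]
  refine Finset.prod_eq_one fun i _ => ?_
  rw [avg_units, sg_one, sg_neg_one]
  ring

/-- Resummation. -/
theorem abs_resum_le {Ω' : Type*} [Fintype Ω'] [Nonempty Ω'] {Z : (Fin M → ℤˣ) → (Y →L[ℝ] ℝ)}
    {β₁ b : ℝ} (hZ : ∀ ε, ‖Z ε‖ ≤ β₁) (s : Ω' → Fin M → ℝ) (hs : ∀ x i, |s x i| ≤ 1)
    (y : Ω' → Y) (hy : ∀ x, ‖y x‖ ≤ b) (ω : Fin M → ℤˣ) :
    |∑ T, (wc T Z) (avg fun x => (∏ i ∈ T, s x i) • y x) * walsh T ω| ≤ β₁ * b := by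
  have hβ₁ : 0 ≤ β₁ := (norm_nonneg _).trans (hZ 1)
  have h1 : ∑ T, (wc T Z) (avg fun x => (∏ i ∈ T, s x i) • y x) * walsh T ω =
      avg fun x => avg fun ε : Fin M → ℤˣ => (∏ i, (1 + (s x i * sg (ω i)) * sg (ε i))) *
        Z ε (y x) := by
    have h2 : ∀ T : Finset (Fin M), (wc T Z) (avg fun x => (∏ i ∈ T, s x i) • y x) * walsh T ω =
        avg fun x => ((∏ i ∈ T, (s x i * sg (ω i))) • wc T Z) (y x) := by
      intro T
      rw [clm_avg, ← avg_mul_right]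
      refine avg_congr fun x => ?_
      rw [map_smul, smul_eq_mul, _root_.smul_apply, smul_eq_mul, Finset.prod_mul_distrib, walsh]
      ring
    rw [Finset.sum_congr rfl fun T _ => h2 T, ← avg_sum]
    refine avg_congr fun x => ?_
    rw [← _root_.sum_apply, mult_ext, avg_apply']
    refine avg_congr fun ε => ?_
    rw [_root_.smul_apply, smul_eq_mul]
  rw [h1]
  refine abs_avg_le_const fun x => ?_
  refine (abs_avg_le _).trans ?_
  have hw : ∀ ε : Fin M → ℤˣ, 0 ≤ ∏ i, (1 + (s x i * sg (ω i)) * sg (ε i)) := by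
    intro ε
    refine Finset.prod_nonneg fun i _ => ?_
    have h3 : |s x i * sg (ω i) * sg (ε i)| ≤ 1 := by
      rw [abs_mul, abs_mul, abs_sg, abs_sg, mul_one, mul_one]
      exact hs x i
    linarith [(abs_le.mp h3).1]
  have h4 : ∀ ε : Fin M → ℤˣ, |(∏ i, (1 + (s x i * sg (ω i)) * sg (ε i))) * Z ε (y x)| ≤
      (∏ i, (1 + (s x i * sg (ω i)) * sg (ε i))) * (β₁ * b) := by
    intro ε
    rw [abs_mul, abs_of_nonneg (hw ε)]
    refine mul_le_mul_of_nonneg_left ?_ (hw ε)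
    rw [← Real.norm_eq_abs]
    exact ((Z ε).le_opNorm _).trans (mul_le_mul (hZ ε) (hy x) (norm_nonneg _) hβ₁)
  refine (avg_mono h4).trans (le_of_eq ?_)
  rw [avg_mul_right, avg_riesz, one_mul]

theorem PP_bic (ρ : Fin M → Ω → ℝ) (T : Finset (Fin M)) (U : Finset (Fin M'))
    (x : Fin M' → Ω) : PP ρ (bic T U) x = ∏ i ∈ T, ∏ k ∈ U, ρ i (x k) := by
  have h1 : ∀ k, ∏ i ∈ bic T U k, ρ i (x k) = if k ∈ U then ∏ i ∈ T, ρ i (x k) else 1 := by
    intro k
    split_ifs with hk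
    · rw [bic_pos hk]
    · rw [bic_neg hk, Finset.prod_empty]
  rw [PP, Finset.prod_congr rfl fun k _ => h1 k, ← Finset.prod_filter]
  have h2 : (Finset.univ.filter fun k => k ∈ U) = U := by
    ext k
    simp
  rw [h2, Finset.prod_comm]

/-- The coefficients of the first level in the second variable. -/
noncomputable def cc (ρ : Fin M → Ω → ℝ) (Z : (Fin M → ℤˣ) → (Y →L[ℝ] ℝ)) (η : Ω → Y)
    (T : Finset (Fin M)) : ℝ :=
  (wc T Z) (avg fun x : Ω => (∏ i ∈ T, ρ i x) • η x)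

theorem vhyp {ρ : Fin M → Ω → ℝ} (hρ : ∀ i z, |ρ i z| ≤ 1)
    (hρ0 : ∀ T : Finset (Fin M), T.Nonempty → (avg fun z => ∏ i ∈ T, ρ i z) = 0)
    {Z : (Fin M → ℤˣ) → (Y →L[ℝ] ℝ)} {ν : (Fin M' → Ω) → (Fin M' → ℤˣ) → Y}
    {η : Ω → Y} {β₁ β₂ b e' : ℝ} (hη : ∀ x, ‖η x‖ ≤ b)
    (hζη : ∀ i, (wc {i} Z) (avg fun x : Ω => ρ i x • η x) = 1)
    (hZ : ∀ ε, ‖Z ε‖ ≤ β₁) (hν : ∀ x δ, ‖ν x δ‖ ≤ β₂) (he' : 0 ≤ e')
    (hZo : ∀ ε, Z (-ε) = - Z ε) (hνo : ∀ x δ, ν x (-δ) = - ν x δ)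
    (hνk : ∀ x k, wc {k} (ν x) = η (x k))
    (hgen : ∀ g : Fin M' → Finset (Fin M), Two g → ‖nh ρ ν (oddU g) g‖ ≤ e') :
    SY.VHyp (kap ρ Z ν) (cc ρ Z η) (β₁ * b) (β₁ * β₂)
      (β₁ * β₂ + (2 ^ M) ^ M' * (β₁ * e')) where
  c_even := fun T hT => by
    rw [cc, wc_even Z hZo T hT, _root_.zero_apply]
  κ_even := fun T U hU => by
    rw [kap, nh_even hνo hU, map_zero]
  c_one := fun i => by
    rw [cc, ← hζη i]
    congr 1
    refine avg_congr fun x => ?_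
    rw [Finset.prod_singleton]
  κ_one := fun T k => by
    rw [kap, cc]
    congr 1
    rw [nh]
    have h1 : ∀ x : Fin M' → Ω, PP ρ (bic T {k}) x • wc {k} (ν x) =
        (fun z : Ω => (∏ i ∈ T, ρ i z) • η z) (x k) := by
      intro x
      rw [PP_bic, hνk]
      simp only [Finset.prod_singleton]
    rw [avg_congr h1]
    exact avg_coord k (fun z : Ω => (∏ i ∈ T, ρ i z) • η z)
  c_bd := fun ω => abs_resum_le hZ (fun x i => ρ i x) (fun x i => hρ i x) _ hη ω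
  κ_bd := fun U ω => by
    have h1 : ∀ T : Finset (Fin M), kap ρ Z ν T U =
        (wc T Z) (avg fun x : Fin M' → Ω => (∏ i ∈ T, ∏ k ∈ U, ρ i (x k)) • wc U (ν x)) := by
      intro T
      rw [kap, nh]
      congr 1
      refine avg_congr fun x => ?_
      rw [PP_bic]
    simp only [h1]
    refine abs_resum_le hZ (fun (x : Fin M' → Ω) i => ∏ k ∈ U, ρ i (x k)) (fun x i => ?_) _
      (fun x => norm_wc_le U (ν x) (hν x)) ω
    rw [Finset.abs_prod]
    exact Finset.prod_le_one (fun _ _ => abs_nonneg _) fun k _ => hρ i (x k)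
  bd := fun A => by
    have h1 := beta_approx hZ he' hZo hνo hgen A
    have h2 := abs_beta_le hρ hρ0 hZ hν A
    have h3 : ∑ T, ∑ U, kap ρ Z ν T U * walsh U (fun k => ∏ i ∈ T, A i k) =
        beta ρ Z ν A -
          (beta ρ Z ν A - ∑ T, ∑ U, kap ρ Z ν T U * walsh U (fun k => ∏ i ∈ T, A i k)) := by
      ring
    rw [h3]
    exact (abs_sub _ _).trans (add_le_add h2 h1)

end Asm

end Vale.Agent.P111.WF
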