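import Vale.Agent.P111.TW.Exp

/-!
Fourier systems: generic choice of the frequencies, in an arbitrary abelian group.
-/

set_option linter.unusedSectionVars false

namespace Vale.Agent.P111.WF

open Finset Vale.Agent.P111 Vale.Agent.P111.TW

section

variable {M M' : ℕ} {Γ : Type*} [DecidableEq Γ]

theorem fiber_card {Λ : Finset Γ} {a₀ : Γ} (_h0 : a₀ ∈ Λ) (S : Finset (Fin M))
    (Q : Finset (Fin M → Γ)) (hQ : ∀ J ∈ Q, ∀ i, J i ∈ Λ)
    (hinj : ∀ J ∈ Q, ∀ J' ∈ Q, (∀ l, l ∉ S → J l = J' l) → J = J') :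
    #Q * #Λ ^ #S ≤ #Λ ^ M := by
  have h1 : #Q ≤ #(Fintype.piFinset fun l : Fin M => if l ∈ S then ({a₀} : Finset Γ) else Λ) := by
    refine Finset.card_le_card_of_injOn (fun J l => if l ∈ S then a₀ else J l) ?_ ?_
    · intro J hJ
      simp only [Finset.mem_coe, Fintype.mem_piFinset]
      intro l
      by_cases hl : l ∈ S
      · simp [hl]
      · simp only [hl, if_false]
        exact hQ J hJ l
    · intro J hJ J' hJ' h
      refine hinj J hJ J' hJ' fun l hl => ?_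
      have := congrFun h l
      simpa [hl] using this
  have h2 : #(Fintype.piFinset fun l : Fin M => if l ∈ S then ({a₀} : Finset Γ) else Λ) =
      #Λ ^ #(Finset.univ.filter fun l => l ∉ S) := by
    rw [Fintype.card_piFinset]
    have h3 : ∀ l : Fin M, #(if l ∈ S then ({a₀} : Finset Γ) else Λ) =
        if l ∉ S then #Λ else 1 := by
      intro l
      by_cases hl : l ∈ S <;> simp [hl]
    rw [Finset.prod_congr rfl fun l _ => h3 l, ← Finset.prod_filter, Finset.prod_const]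
  have h4 : #(Finset.univ.filter fun l => l ∉ S) + #S = M := by
    have h5 := Finset.card_filter_add_card_filter_not (s := (Finset.univ : Finset (Fin M)))
      (fun l => l ∉ S)
    have h6 : (Finset.univ.filter fun l => ¬ l ∉ S) = S := by
      ext l
      simp
    rw [h6, Finset.card_univ, Fintype.card_fin] at h5
    exact h5
  calc #Q * #Λ ^ #S ≤ #Λ ^ #(Finset.univ.filter fun l => l ∉ S) * #Λ ^ #S :=
        Nat.mul_le_mul_right _ (h1.trans h2.le)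
    _ = #Λ ^ M := by rw [← pow_add, h4]

theorem two_cols {g : Fin M' → Finset (Fin M)} (hg : Two g) :
    ∃ k₁ k₂ i j, i ∈ g k₁ ∧ i ∉ g k₂ ∧ j ∈ g k₂ := by
  obtain ⟨k, k', ⟨a, ha⟩, ⟨b, hb⟩, hne⟩ := hg
  by_cases h1 : g k ⊆ g k'
  · have h2 : ¬ g k' ⊆ g k := fun h => hne (Finset.Subset.antisymm h1 h)
    obtain ⟨i, hi, hi'⟩ := Finset.not_subset.mp h2
    exact ⟨k', k, i, a, hi, hi', ha⟩
  · obtain ⟨i, hi, hi'⟩ := Finset.not_subset.mp h1
    exact ⟨k, k', i, b, hi, hi', hb⟩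

variable [AddCommGroup Γ]

theorem unit_smul_inj {u : ℤˣ} {a b : Γ} (h : (u : ℤ) • a = (u : ℤ) • b) : a = b := by
  rcases Int.units_eq_one_or u with rfl | rfl
  · simpa using h
  · simpa using h

theorem solve {T : Finset (Fin M)} {i₀ : Fin M} (hi₀ : i₀ ∈ T) (σ : Fin M → ℤˣ)
    {J J' : Fin M → Γ}
    (h : ∑ i ∈ T, ((σ i : ℤˣ) : ℤ) • J i = ∑ i ∈ T, ((σ i : ℤˣ) : ℤ) • J' i)
    (hJ : ∀ i ∈ T, i ≠ i₀ → J i = J' i) : J i₀ = J' i₀ := by
  rw [← Finset.add_sum_erase T _ hi₀, ← Finset.add_sum_erase T _ hi₀] at h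
  have h2 : ∑ i ∈ T.erase i₀, ((σ i : ℤˣ) : ℤ) • J i =
      ∑ i ∈ T.erase i₀, ((σ i : ℤˣ) : ℤ) • J' i := by
    refine Finset.sum_congr rfl fun i hi => ?_
    rw [hJ i (Finset.mem_of_mem_erase hi) (Finset.ne_of_mem_erase hi)]
  rw [h2] at h
  exact unit_smul_inj (add_right_cancel h)

theorem generic (M M' : ℕ) (Λ : Finset Γ) (B : Finset (Fin M' → Γ))
    (h1 : 2 * (2 ^ M * 2 ^ M) < #Λ)
    (h2 : 2 * ((2 ^ M) ^ M' * (2 ^ M') ^ M * #B) ≤ #Λ ^ 2) :
    ∃ J : Fin M → Γ, (∀ i, J i ∈ Λ) ∧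
      (∀ T : Finset (Fin M), T.Nonempty → ∀ σ : Fin M → ℤˣ,
        ∑ i ∈ T, ((σ i : ℤˣ) : ℤ) • J i ≠ 0) ∧
      ∀ g : Fin M' → Finset (Fin M), Two g → ∀ σ : Fin M → Fin M' → ℤˣ,
        (fun k => ∑ i ∈ g k, ((σ i k : ℤˣ) : ℤ) • J i) ∉ B := by
  classical
  have hΛ : 0 < #Λ := lt_of_le_of_lt (Nat.zero_le _) h1
  obtain ⟨a₀, ha₀⟩ := Finset.card_pos.mp hΛ
  set P : Finset (Fin M → Γ) := Fintype.piFinset fun _ : Fin M => Λ with hP
  have hPc : #P = #Λ ^ M := by rw [hP, Fintype.card_piFinset_const]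
  set Q₁ : Finset (Fin M) × (Fin M → ℤˣ) → Finset (Fin M → Γ) := fun p =>
    P.filter fun J => p.1.Nonempty ∧ ∑ i ∈ p.1, ((p.2 i : ℤˣ) : ℤ) • J i = 0 with hQ₁
  set Q₂ : ((Fin M' → Finset (Fin M)) × (Fin M → Fin M' → ℤˣ)) × (Fin M' → Γ) →
      Finset (Fin M → Γ) := fun p =>
    P.filter fun J => Two p.1.1 ∧
      (fun k => ∑ i ∈ p.1.1 k, ((p.1.2 i k : ℤˣ) : ℤ) • J i) = p.2 with hQ₂
  have hc₁ : ∀ p, #(Q₁ p) * #Λ ≤ #Λ ^ M := by
    rintro ⟨T, σ⟩
    by_cases hT : T.Nonempty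
    · obtain ⟨i₀, hi₀⟩ := hT
      have h3 := fiber_card ha₀ {i₀} (Q₁ (T, σ)) (fun J hJ i => ?_) (fun J hJ J' hJ' hag => ?_)
      · rwa [Finset.card_singleton, pow_one] at h3
      · simp only [hQ₁, Finset.mem_filter, hP, Fintype.mem_piFinset] at hJ
        exact hJ.1 i
      · simp only [hQ₁, Finset.mem_filter] at hJ hJ'
        funext l
        by_cases hl : l = i₀
        · subst hl
          refine solve hi₀ σ (hJ.2.2.trans hJ'.2.2.symm) fun i _ hi => hag i ?_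
          simpa using hi
        · exact hag l (by simpa using hl)
    · have : Q₁ (T, σ) = ∅ := by
        rw [hQ₁]
        simp [hT]
      rw [this]
      simp
  have hc₂ : ∀ p, #(Q₂ p) * #Λ ^ 2 ≤ #Λ ^ M := by
    rintro ⟨⟨g, σ⟩, b⟩
    by_cases hg : Two g
    · obtain ⟨k₁, k₂, i, j, hi1, hi2, hj⟩ := two_cols hg
      have hij : i ≠ j := fun h => hi2 (h ▸ hj)
      have h3 := fiber_card ha₀ {i, j} (Q₂ ((g, σ), b)) (fun J hJ i => ?_)
        (fun J hJ J' hJ' hag => ?_)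
      · rwa [Finset.card_pair hij] at h3
      · simp only [hQ₂, Finset.mem_filter, hP, Fintype.mem_piFinset] at hJ
        exact hJ.1 i
      · simp only [hQ₂, Finset.mem_filter] at hJ hJ'
        have hag' : ∀ l, l ≠ i → l ≠ j → J l = J' l := by
          intro l h4 h5
          refine hag l ?_
          simp [h4, h5]
        have hjj : J j = J' j := by
          refine solve hj (fun l => σ l k₂) ?_ fun l hl hlj => hag' l (fun h => hi2 (h ▸ hl)) hlj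
          exact (congrFun hJ.2.2 k₂).trans (congrFun hJ'.2.2 k₂).symm
        have hii : J i = J' i := by
          refine solve hi1 (fun l => σ l k₁) ?_ fun l _ hli => ?_
          · exact (congrFun hJ.2.2 k₁).trans (congrFun hJ'.2.2 k₁).symm
          · by_cases hlj : l = j
            · rw [hlj, hjj]
            · exact hag' l hli hlj
        funext l
        by_cases hli : l = i
        · rw [hli, hii]
        · by_cases hlj : l = j
          · rw [hlj, hjj]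
          · exact hag' l hli hlj
    · have : Q₂ ((g, σ), b) = ∅ := by
        rw [hQ₂]
        simp [hg]
      rw [this]
      simp
  set N₁ : Finset (Fin M → Γ) := Finset.univ.biUnion Q₁ with hN₁
  set N₂ : Finset (Fin M → Γ) := (Finset.univ ×ˢ B).biUnion Q₂ with hN₂
  have hn₁ : #N₁ * #Λ ≤ 2 ^ M * 2 ^ M * #Λ ^ M := by
    calc #N₁ * #Λ ≤ (∑ p, #(Q₁ p)) * #Λ := Nat.mul_le_mul_right _ Finset.card_biUnion_le
      _ = ∑ p, #(Q₁ p) * #Λ := Finset.sum_mul _ _ _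
      _ ≤ ∑ _p : Finset (Fin M) × (Fin M → ℤˣ), #Λ ^ M := Finset.sum_le_sum fun p _ => hc₁ p
      _ = 2 ^ M * 2 ^ M * #Λ ^ M := by
        rw [Finset.sum_const, Finset.card_univ, Fintype.card_prod, Fintype.card_finset,
          Fintype.card_fun, Fintype.card_units_int, Fintype.card_fin, smul_eq_mul]
  have hn₂ : #N₂ * #Λ ^ 2 ≤ (2 ^ M) ^ M' * (2 ^ M') ^ M * #B * #Λ ^ M := by
    calc #N₂ * #Λ ^ 2 ≤ (∑ p ∈ Finset.univ ×ˢ B, #(Q₂ p)) * #Λ ^ 2 :=
          Nat.mul_le_mul_right _ Finset.card_biUnion_le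
      _ = ∑ p ∈ Finset.univ ×ˢ B, #(Q₂ p) * #Λ ^ 2 := Finset.sum_mul _ _ _
      _ ≤ ∑ _p ∈ (Finset.univ : Finset ((Fin M' → Finset (Fin M)) × (Fin M → Fin M' → ℤˣ))) ×ˢ B,
            #Λ ^ M := Finset.sum_le_sum fun p _ => hc₂ p
      _ = (2 ^ M) ^ M' * (2 ^ M') ^ M * #B * #Λ ^ M := by
        rw [Finset.sum_const, Finset.card_product, Finset.card_univ, Fintype.card_prod,
          Fintype.card_fun, Fintype.card_fun, Fintype.card_fun, Fintype.card_finset,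
          Fintype.card_units_int, Fintype.card_fin, Fintype.card_fin, smul_eq_mul]
  have htot : #(N₁ ∪ N₂) < #P := by
    have h5 : #(N₁ ∪ N₂) * #Λ ^ 2 < #P * #Λ ^ 2 := by
      have h6 : 0 < #Λ ^ M := pow_pos hΛ M
      calc #(N₁ ∪ N₂) * #Λ ^ 2 ≤ (#N₁ + #N₂) * #Λ ^ 2 :=
            Nat.mul_le_mul_right _ (Finset.card_union_le _ _)
        _ = #N₁ * #Λ * #Λ + #N₂ * #Λ ^ 2 := by ring
        _ ≤ 2 ^ M * 2 ^ M * #Λ ^ M * #Λ + (2 ^ M) ^ M' * (2 ^ M') ^ M * #B * #Λ ^ M :=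
            add_le_add (Nat.mul_le_mul_right _ hn₁) hn₂
        _ = (2 ^ M * 2 ^ M * #Λ + (2 ^ M) ^ M' * (2 ^ M') ^ M * #B) * #Λ ^ M := by ring
        _ < #Λ ^ 2 * #Λ ^ M := by
          refine Nat.mul_lt_mul_of_pos_right ?_ h6
          have h7 : 2 * (2 ^ M * 2 ^ M) * #Λ < #Λ * #Λ := Nat.mul_lt_mul_of_pos_right h1 hΛ
          rw [sq] at h2 ⊢
          linarith
        _ = #P * #Λ ^ 2 := by rw [hPc]; ring
    exact lt_of_mul_lt_mul_right h5 (Nat.zero_le _)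
  obtain ⟨J, hJP, hJN⟩ := Finset.exists_mem_notMem_of_card_lt_card htot
  rw [Finset.mem_union, not_or] at hJN
  refine ⟨J, fun i => ?_, fun T hT σ h3 => ?_, fun g hg σ h3 => ?_⟩
  · rw [hP, Fintype.mem_piFinset] at hJP
    exact hJP i
  · refine hJN.1 ?_
    rw [hN₁, Finset.mem_biUnion]
    refine ⟨(T, σ), Finset.mem_univ _, ?_⟩
    rw [hQ₁]
    exact Finset.mem_filter.mpr ⟨hJP, hT, h3⟩
  · refine hJN.2 ?_
    rw [hN₂, Finset.mem_biUnion]
    refine ⟨((g, σ), fun k => ∑ i ∈ g k, ((σ i k : ℤˣ) : ℤ) • J i), ?_, ?_⟩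
    · exact Finset.mem_product.mpr ⟨Finset.mem_univ _, h3⟩
    · rw [hQ₂]
      exact Finset.mem_filter.mpr ⟨hJP, hg, rfl⟩

end

end Vale.Agent.P111.WF
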