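import Mathlib.Topology.Algebra.PontryaginDual
import Mathlib.Topology.Instances.AddCircle.DenseSubgroup
import Mathlib.Analysis.SpecialFunctions.Complex.CircleAddChar
import Mathlib.GroupTheory.FiniteAbelian.Basic
import Mathlib.Algebra.Group.Pointwise.Finset.Basic
import Mathlib.RingTheory.RootsOfUnity.Basic

/-!
Finite sets of characters of a compact abelian group which look like the characters of a
finite group.
-/

set_option linter.unusedSectionVars false

namespace Vale.Agent.P111.WF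

open Finset
open scoped Pointwise

universe u

section

variable {G : Type u} [CommGroup G] [TopologicalSpace G] [IsTopologicalGroup G] [CompactSpace G]

theorem chi_mul (J J' : G →ₜ* Circle) (g : G) : (J * J') g = J g * J' g := rfl

theorem chi_one (g : G) : (1 : G →ₜ* Circle) g = 1 := rfl

theorem chi_inv (J : G →ₜ* Circle) (g : G) : (J⁻¹) g = (J g)⁻¹ := rfl

theorem chi_div (J J' : G →ₜ* Circle) (g : G) : (J / J') g = J g / J' g := by
  rw [div_eq_mul_inv, div_eq_mul_inv]; rfl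

theorem chi_pow (J : G →ₜ* Circle) (n : ℕ) (g : G) : (J ^ n) g = J g ^ n := by
  induction n with
  | zero => rw [pow_zero, pow_zero]; rfl
  | succ n ih => rw [pow_succ, pow_succ, chi_mul, ih]

/-- The set of quotients. -/
noncomputable def dq {Γ : Type*} [Group Γ] (F : Finset Γ) : Finset Γ := by
  classical
  exact (F ×ˢ F).image fun p => p.1 / p.2

theorem mem_dq {Γ : Type*} [Group Γ] {F : Finset Γ} {K : Γ} :
    K ∈ dq F ↔ ∃ a ∈ F, ∃ b ∈ F, a / b = K := by
  classical
  unfold dq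
  rw [Finset.mem_image]
  constructor
  · rintro ⟨⟨a, b⟩, h, rfl⟩
    rw [Finset.mem_product] at h
    exact ⟨a, h.1, b, h.2, rfl⟩
  · rintro ⟨a, ha, b, hb, rfl⟩
    exact ⟨(a, b), Finset.mem_product.mpr ⟨ha, hb⟩, rfl⟩

/-- A continuous character of infinite order is surjective. -/
theorem surjective_of_order (J : G →ₜ* Circle) (hJ : ∀ n : ℕ, n ≠ 0 → ∃ g, J g ^ n ≠ 1) :
    Function.Surjective J := by
  have hT : (0:ℝ) < 1 := one_pos
  have hfact : Fact ((0:ℝ) < 1) := ⟨hT⟩
  let s : AddSubgroup (AddCircle (1:ℝ)) :=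
    { carrier := {a | AddCircle.toCircle a ∈ Set.range J}
      add_mem' := by
        rintro a b ⟨x, hx⟩ ⟨y, hy⟩
        exact ⟨x * y, by rw [map_mul, hx, hy, AddCircle.toCircle_add]⟩
      zero_mem' := ⟨1, by rw [map_one, AddCircle.toCircle_zero]⟩
      neg_mem' := by
        rintro a ⟨x, hx⟩
        exact ⟨x⁻¹, by rw [map_inv, hx, AddCircle.toCircle_neg]⟩ }
  have hsurj : Function.Surjective (AddCircle.toCircle : AddCircle (1:ℝ) → Circle) := by
    intro z
    obtain ⟨a, ha⟩ := (AddCircle.homeomorphCircle (T := (1:ℝ)) one_ne_zero).surjective z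
    exact ⟨a, by rw [← AddCircle.homeomorphCircle_apply one_ne_zero, ha]⟩
  have hdense : Dense (s : Set (AddCircle (1:ℝ))) := by
    rw [AddCircle.dense_addSubgroup_iff_ne_zmultiples]
    intro a ha hs
    obtain ⟨g, hg⟩ := hJ _ ha
    obtain ⟨b, hb⟩ := hsurj (J g)
    have hbs : b ∈ s := ⟨g, hb.symm⟩
    rw [hs, AddSubgroup.mem_zmultiples_iff] at hbs
    obtain ⟨k, hk⟩ := hbs
    apply hg
    rw [← hb, ← hk, ← AddCircle.toCircle_nsmul, smul_comm, addOrderOf_nsmul_eq_zero, smul_zero,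
      AddCircle.toCircle_zero]
  have hclosed : IsClosed (s : Set (AddCircle (1:ℝ))) := by
    have h1 : IsClosed (Set.range J) := (isCompact_range J.continuous_toFun).isClosed
    exact h1.preimage AddCircle.continuous_toCircle
  intro z
  obtain ⟨a, ha⟩ := hsurj z
  have h1 : a ∈ s := by
    have h2 := hdense a
    rw [hclosed.closure_eq] at h2
    exact h2
  obtain ⟨g, hg⟩ := h1
  exact ⟨g, hg.trans ha⟩

/-- The system attached to a character of infinite order. -/
theorem exists_sys_of_order (J : G →ₜ* Circle) (hJ : ∀ n : ℕ, n ≠ 0 → ∃ g, J g ^ n ≠ 1)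
    (N : ℕ) : ∃ (F : Finset (G →ₜ* Circle)) (H : Type) (_ : AddCommGroup H) (_ : Fintype H)
      (s : H → G), N ≤ #F ∧ #(dq F) ≤ 2 * #F ∧
      (∀ J ∈ dq F, ∀ x y, J (s (x + y)) = J (s x) * J (s y)) ∧
      ∀ J ∈ dq F, ∀ J' ∈ dq F, (∀ x, J (s x) = J' (s x)) → J = J' := by
  classical
  obtain ⟨n, hn⟩ : ∃ n : ℕ, n = N + 1 := ⟨_, rfl⟩
  have hn0 : NeZero (2 * n) := ⟨by omega⟩
  have hsur := surjective_of_order J hJ
  choose s hs using fun x : ZMod (2 * n) => hsur (ZMod.toCircle x)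
  have hpow : ∀ k l : ℤ, J ^ k = J ^ l → k = l := by
    intro k l hkl
    by_contra hne
    wlog hlt : l < k generalizing k l
    · exact this l k hkl.symm (Ne.symm hne) (by omega)
    obtain ⟨m, hm⟩ := Int.eq_ofNat_of_zero_le (by omega : 0 ≤ k - l)
    obtain ⟨g, hg⟩ := hJ m (by omega)
    apply hg
    have h1 : J ^ (k - l) = 1 := by rw [zpow_sub, hkl, mul_inv_cancel]
    rw [hm, zpow_natCast] at h1
    have h2 : (J ^ m) g = 1 := by rw [h1]; rfl
    rw [← chi_pow]
    exact h2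
  have happ : ∀ (k : ℤ) (g : G), (J ^ k) g = J g ^ k := by
    intro k g
    obtain ⟨m, rfl | rfl⟩ := Int.eq_nat_or_neg k
    · rw [zpow_natCast, zpow_natCast, chi_pow]
    · rw [zpow_neg, zpow_neg, zpow_natCast, zpow_natCast, chi_inv, chi_pow]
  obtain ⟨F, hF⟩ : ∃ F : Finset (G →ₜ* Circle),
      F = (Finset.range n).image fun i : ℕ => J ^ (i : ℤ) := ⟨_, rfl⟩
  have hFc : #F = n := by
    rw [hF, Finset.card_image_of_injective, Finset.card_range]
    intro a b hab
    exact_mod_cast hpow _ _ hab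
  have hFF : dq F ⊆ (Finset.Ioo (-(n:ℤ)) n).image fun i : ℤ => J ^ i := by
    intro K hK
    obtain ⟨a, ha, b, hb, rfl⟩ := mem_dq.mp hK
    rw [hF, Finset.mem_image] at ha hb
    obtain ⟨i, hi, rfl⟩ := ha
    obtain ⟨j, hj, rfl⟩ := hb
    rw [Finset.mem_range] at hi hj
    rw [Finset.mem_image]
    refine ⟨(i:ℤ) - j, ?_, by simp only [zpow_sub, div_eq_mul_inv]⟩
    rw [Finset.mem_Ioo]
    omega
  refine ⟨F, ZMod (2 * n), inferInstance, inferInstance, s, by omega, ?_, ?_, ?_⟩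
  · refine (Finset.card_le_card hFF).trans (Finset.card_image_le.trans ?_)
    rw [Int.card_Ioo, hFc]
    omega
  · intro K hK x y
    obtain ⟨k, hk, rfl⟩ := Finset.mem_image.mp (hFF hK)
    simp only [happ, hs]
    rw [AddChar.map_add_eq_mul, mul_zpow]
  · intro K hK K' hK' h
    obtain ⟨k, hk, rfl⟩ := Finset.mem_image.mp (hFF hK)
    obtain ⟨l, hl, rfl⟩ := Finset.mem_image.mp (hFF hK')
    have h1 := h 1
    simp only [happ, hs] at h1
    rw [← AddChar.map_zsmul_eq_zpow, ← AddChar.map_zsmul_eq_zpow] at h1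
    have h2 := ZMod.injective_toCircle h1
    rw [zsmul_one, zsmul_one] at h2
    rw [ZMod.intCast_eq_intCast_iff_dvd_sub] at h2
    rw [Finset.mem_Ioo] at hk hl
    obtain ⟨c, hc⟩ := h2
    have h3 : l - k = 0 := by
      push_cast at hc
      have h4 : |l - k| < 2 * n := by rw [abs_lt]; omega
      have h5 : c = 0 := by
        by_contra hc0
        have h6 : 1 ≤ |c| := Int.one_le_abs hc0
        rw [hc, abs_mul] at h4
        have h7 : |2 * (n : ℤ)| = 2 * n := abs_of_nonneg (by positivity)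
        rw [h7] at h4
        nlinarith
      rw [hc, h5, mul_zero]
    have h4 : k = l := by omega
    rw [h4]

theorem finite_circle_pow {m : ℕ} (hm : m ≠ 0) : {z : Circle | z ^ m = 1}.Finite := by
  have h1 : {z : ℂ | z ^ m = 1}.Finite := by
    refine (Polynomial.nthRootsFinset m (1:ℂ)).finite_toSet.subset fun z hz => ?_
    rw [Finset.mem_coe, Polynomial.mem_nthRootsFinset (Nat.pos_of_ne_zero hm)]
    exact hz
  refine Set.Finite.of_finite_image (f := fun z : Circle => (z : ℂ)) (h1.subset ?_)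
    (Circle.coe_injective.injOn)
  rintro _ ⟨z, hz, rfl⟩
  have h2 : z ^ m = 1 := hz
  change (z : ℂ) ^ m = 1
  rw [← Circle.coe_pow, h2, Circle.coe_one]

/-- The system attached to an infinite torsion dual group. -/
theorem exists_sys_of_torsion [Infinite (G →ₜ* Circle)]
    (ht : ∀ J : G →ₜ* Circle, ∃ n : ℕ, n ≠ 0 ∧ ∀ g, J g ^ n = 1)
    (N : ℕ) : ∃ (F : Finset (G →ₜ* Circle)) (H : Type) (_ : AddCommGroup H) (_ : Fintype H)
      (s : H → G), N ≤ #F ∧ #(dq F) ≤ 2 * #F ∧
      (∀ J ∈ dq F, ∀ x y, J (s (x + y)) = J (s x) * J (s y)) ∧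
      ∀ J ∈ dq F, ∀ J' ∈ dq F, (∀ x, J (s x) = J' (s x)) → J = J' := by
  classical
  have htor : IsMulTorsion (G →ₜ* Circle) := by
    intro J
    obtain ⟨n, hn, h⟩ := ht J
    rw [isOfFinOrder_iff_pow_eq_one]
    refine ⟨n, Nat.pos_of_ne_zero hn, ?_⟩
    apply ContinuousMonoidHom.ext
    intro g
    rw [chi_pow, h g]
    rfl
  obtain ⟨A, hA⟩ := Infinite.exists_subset_card_eq (G →ₜ* Circle) N
  let S : Subgroup (G →ₜ* Circle) := Subgroup.closure (A : Set (G →ₜ* Circle))
  have hSfg : Group.FG S := (Group.fg_iff_subgroup_fg S).mpr ⟨A, rfl⟩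
  have hfin : Finite S := CommGroup.finite_of_fg_isMulTorsion S (htor.subgroup S)
  have hfinS : (S : Set (G →ₜ* Circle)).Finite := Set.toFinite _
  obtain ⟨F, hF⟩ : ∃ F : Finset (G →ₜ* Circle), F = hfinS.toFinset := ⟨_, rfl⟩
  have hmem : ∀ J, J ∈ F ↔ J ∈ S := by
    intro J
    rw [hF, Set.Finite.mem_toFinset]
    rfl
  have hFF : dq F ⊆ F := by
    intro K hK
    obtain ⟨a, ha, b, hb, rfl⟩ := mem_dq.mp hK
    rw [hmem] at ha hb ⊢
    exact S.div_mem ha hb
  -- the finite group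
  let ι : Fin #F ≃ F := F.equivFin.symm
  let Φ : G →* (Fin #F → Circle) :=
    { toFun := fun g i => (ι i).1 g
      map_one' := by funext i; simp
      map_mul' := by intro x y; funext i; simp }
  have hH : Finite Φ.range := by
    choose n hn0 hn using ht
    have h1 : (Set.univ.pi fun i : Fin #F => {z : Circle | z ^ n (ι i).1 = 1}).Finite :=
      Set.Finite.pi fun i => finite_circle_pow (hn0 _)
    refine (h1.subset ?_).to_subtype
    rintro _ ⟨g, rfl⟩
    rw [Set.mem_univ_pi]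
    intro i
    exact hn _ g
  have hfinH : Fintype (Additive Φ.range) := Fintype.ofFinite _
  choose s hs using fun x : Additive Φ.range => (Additive.toMul x).2
  have hval : ∀ J ∈ F, ∃ i, ∀ x, J (s x) = (Additive.toMul x).1 i := by
    intro J hJ
    refine ⟨ι.symm ⟨J, hJ⟩, fun x => ?_⟩
    rw [← hs x]
    change _ = (ι (ι.symm ⟨J, hJ⟩)).1 (s x)
    rw [Equiv.apply_symm_apply]
  refine ⟨F, Additive Φ.range, inferInstance, hfinH, s, ?_, ?_, ?_, ?_⟩
  · rw [← hA]
    refine Finset.card_le_card fun J hJ => ?_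
    rw [hmem]
    exact Subgroup.subset_closure hJ
  · have := Finset.card_le_card hFF
    omega
  · intro J hJ x y
    obtain ⟨i, hi⟩ := hval J (hFF hJ)
    rw [hi, hi, hi]
    rfl
  · intro J hJ J' hJ' h
    apply ContinuousMonoidHom.ext
    intro g
    have h1 := h (Additive.ofMul ⟨Φ g, g, rfl⟩)
    obtain ⟨i, hi⟩ : ∃ i, (ι i).1 = J := ⟨ι.symm ⟨J, hFF hJ⟩, by rw [Equiv.apply_symm_apply]⟩
    obtain ⟨i', hi'⟩ : ∃ i, (ι i).1 = J' := ⟨ι.symm ⟨J', hFF hJ'⟩, by rw [Equiv.apply_symm_apply]⟩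
    have h2 := hs (Additive.ofMul ⟨Φ g, g, rfl⟩)
    have h3 : J (s (Additive.ofMul ⟨Φ g, g, rfl⟩)) = J g := by
      have := congrFun h2 i
      rw [← hi]
      exact this
    have h4 : J' (s (Additive.ofMul ⟨Φ g, g, rfl⟩)) = J' g := by
      have := congrFun h2 i'
      rw [← hi']
      exact this
    rw [← h3, ← h4, h1]

/-- Finite systems in compact abelian groups with infinite dual. -/
theorem exists_sys [Infinite (G →ₜ* Circle)] (N : ℕ) :
    ∃ (F : Finset (G →ₜ* Circle)) (H : Type) (_ : AddCommGroup H) (_ : Fintype H)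
      (s : H → G), N ≤ #F ∧ #(dq F) ≤ 2 * #F ∧
      (∀ J ∈ dq F, ∀ x y, J (s (x + y)) = J (s x) * J (s y)) ∧
      ∀ J ∈ dq F, ∀ J' ∈ dq F, (∀ x, J (s x) = J' (s x)) → J = J' := by
  by_cases h : ∃ J : G →ₜ* Circle, ∀ n : ℕ, n ≠ 0 → ∃ g, J g ^ n ≠ 1
  · obtain ⟨J, hJ⟩ := h
    exact exists_sys_of_order J hJ N
  · push Not at h
    exact exists_sys_of_torsion h N

end

end Vale.Agent.P111.WF
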