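import Vale.Agent.P111.WF.Iter
import Vale.Agent.P111.WF.Sys
import Mathlib.MeasureTheory.Measure.Haar.Basic
import Mathlib.MeasureTheory.Group.Integral
import Mathlib.MeasureTheory.Function.LocallyIntegrable
import Mathlib.MeasureTheory.Integral.Bochner.ContinuousLinearMap
import Mathlib.Topology.ContinuousMap.Compact

/-!
Convolution with Fejér type kernels on homogeneous Banach spaces on compact abelian groups.
-/

set_option linter.unusedSectionVars false

namespace Vale.Agent.P111.WF

open Finset Vale.Agent.P111 MeasureTheory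

section

variable {G : Type*} [CommGroup G] [TopologicalSpace G] [IsTopologicalGroup G] [CompactSpace G]
  [MeasurableSpace G] [BorelSpace G] {μ : Measure G} [IsProbabilityMeasure μ]
  [μ.IsMulLeftInvariant]

theorem integrable_cont {E : Type*} [NormedAddCommGroup E] {f : G → E} (hf : Continuous f) :
    Integrable f μ :=
  hf.integrable_of_hasCompactSupport (HasCompactSupport.of_compactSpace _)

theorem continuous_chi (J : G →ₜ* Circle) : Continuous fun g => (J g : ℂ) :=
  continuous_subtype_val.comp J.continuous_toFun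

theorem integral_chi (J : G →ₜ* Circle) (hJ : J ≠ 1) : ∫ g, (J g : ℂ) ∂μ = 0 := by
  have h1 : ∃ g, J g ≠ 1 := by
    by_contra h
    push Not at h
    exact hJ (ContinuousMonoidHom.ext h)
  obtain ⟨g₀, hg₀⟩ := h1
  have h2 : ∫ g, (J (g₀ * g) : ℂ) ∂μ = ∫ g, (J g : ℂ) ∂μ :=
    integral_mul_left_eq_self (μ := μ) (fun g => (J g : ℂ)) g₀
  have h3 : ∫ g, (J (g₀ * g) : ℂ) ∂μ = (J g₀ : ℂ) * ∫ g, (J g : ℂ) ∂μ := by
    rw [← integral_const_mul]
    refine integral_congr_ae (Filter.Eventually.of_forall fun g => ?_)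
    simp only [map_mul, Circle.coe_mul]
  rw [h3] at h2
  by_contra hne
  have h4 : (J g₀ : ℂ) = 1 := by
    have h5 : ((J g₀ : ℂ) - 1) * ∫ g, (J g : ℂ) ∂μ = 0 := by rw [sub_mul, h2, one_mul, sub_self]
    rcases mul_eq_zero.mp h5 with h | h
    · exact sub_eq_zero.mp h
    · exact absurd h hne
  exact hg₀ (Circle.coe_injective (by rw [h4, Circle.coe_one]))

theorem integral_chi_one : ∫ g, ((1 : G →ₜ* Circle) g : ℂ) ∂μ = 1 := by
  have h : ∀ g : G, ((1 : G →ₜ* Circle) g : ℂ) = 1 := fun g => by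
    rw [chi_one, Circle.coe_one]
  simp only [h]
  simp

/-- The kernel. -/
noncomputable def ker (F : Finset (G →ₜ* Circle)) (g : G) : ℝ :=
  (#F : ℝ)⁻¹ * ‖∑ J ∈ F, (J g : ℂ)‖ ^ 2

theorem ker_nonneg (F : Finset (G →ₜ* Circle)) (g : G) : 0 ≤ ker F g := by
  unfold ker; positivity

theorem continuous_ker (F : Finset (G →ₜ* Circle)) : Continuous (ker F) := by
  unfold ker
  refine continuous_const.mul (Continuous.pow (Continuous.norm ?_) 2)
  exact continuous_finsetSum _ fun J _ => continuous_chi J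

theorem ker_eq (F : Finset (G →ₜ* Circle)) (g : G) :
    (ker F g : ℂ) = (#F : ℂ)⁻¹ * ∑ a ∈ F, ∑ b ∈ F, ((a / b) g : ℂ) := by
  have h1 : ((‖∑ J ∈ F, (J g : ℂ)‖ ^ 2 : ℝ) : ℂ) =
      (∑ J ∈ F, (J g : ℂ)) * (starRingEnd ℂ) (∑ J ∈ F, (J g : ℂ)) := by
    rw [Complex.mul_conj, Complex.normSq_eq_norm_sq]
  unfold ker
  rw [Complex.ofReal_mul, h1, map_sum, Finset.sum_mul_sum]
  push_cast
  refine congrArg _ (Finset.sum_congr rfl fun a _ => Finset.sum_congr rfl fun b _ => ?_)
  rw [chi_div, div_eq_mul_inv, Circle.coe_mul, Circle.coe_inv_eq_conj]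

/-- The number of representations. -/
noncomputable def rep (F : Finset (G →ₜ* Circle)) (J : G →ₜ* Circle) : ℕ := by
  classical
  exact #((F ×ˢ F).filter fun p => p.1 / p.2 * J = 1)

theorem integral_ker_mul (F : Finset (G →ₜ* Circle)) (J : G →ₜ* Circle) :
    ∫ g, (ker F g : ℂ) * (J g : ℂ) ∂μ = (#F : ℂ)⁻¹ * rep F J := by
  classical
  have h1 : ∀ g, (ker F g : ℂ) * (J g : ℂ) =
      (#F : ℂ)⁻¹ * ∑ p ∈ F ×ˢ F, ((p.1 / p.2 * J) g : ℂ) := by
    intro g
    rw [ker_eq, mul_assoc, Finset.sum_mul, Finset.sum_product]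
    refine congrArg _ (Finset.sum_congr rfl fun a _ => ?_)
    rw [Finset.sum_mul]
    refine Finset.sum_congr rfl fun b _ => ?_
    rw [chi_mul, Circle.coe_mul]
  simp only [h1]
  rw [integral_const_mul, integral_finsetSum _ fun p _ => integrable_cont (continuous_chi _)]
  congr 1
  unfold rep
  rw [Finset.card_filter]
  push_cast
  refine Finset.sum_congr rfl fun p _ => ?_
  split_ifs with h
  · rw [h, integral_chi_one]
  · exact integral_chi _ h

theorem rep_one (F : Finset (G →ₜ* Circle)) : rep F 1 = #F := by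
  classical
  unfold rep
  refine (Finset.card_bij (fun p _ => p.1) ?_ ?_ ?_)
  · intro p hp
    rw [Finset.mem_filter, Finset.mem_product] at hp
    exact hp.1.1
  · intro p hp p' hp' h
    rw [Finset.mem_filter, Finset.mem_product, mul_one, div_eq_one] at hp hp'
    ext1
    · exact h
    · rw [← hp.2, ← hp'.2]; exact h
  · intro a ha
    exact ⟨(a, a), by simp [ha], rfl⟩

theorem rep_le (F : Finset (G →ₜ* Circle)) (J : G →ₜ* Circle) : rep F J ≤ #F := by
  classical
  unfold rep
  refine Finset.card_le_card_of_injOn (fun p => p.1) ?_ ?_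
  · intro p hp
    rw [Finset.mem_coe, Finset.mem_filter, Finset.mem_product] at hp
    exact hp.1.1
  · intro p hp p' hp' h
    rw [Finset.mem_coe, Finset.mem_filter] at hp hp'
    have h1 : p.1 / p.2 = p'.1 / p'.2 := by
      have := hp.2.trans hp'.2.symm
      exact mul_right_cancel this
    have h2 : p.1 = p'.1 := h
    rw [h2] at h1
    ext1
    · exact h2
    · exact div_right_injective h1

theorem sum_rep (F : Finset (G →ₜ* Circle)) : ∑ J ∈ dq F, rep F J = #F ^ 2 := by
  classical
  have h1 : #(F ×ˢ F) = ∑ J ∈ dq F, #((F ×ˢ F).filter fun p => (p.1 / p.2)⁻¹ = J) := by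
    refine Finset.card_eq_sum_card_fiberwise fun p hp => ?_
    rw [Finset.mem_coe, Finset.mem_product] at hp
    rw [Finset.mem_coe, mem_dq]
    exact ⟨p.2, hp.2, p.1, hp.1, by rw [inv_div]⟩
  rw [Finset.card_product, ← pow_two] at h1
  rw [h1]
  refine Finset.sum_congr rfl fun J _ => ?_
  unfold rep
  congr 1
  refine Finset.filter_congr fun p _ => ?_
  rw [mul_eq_one_iff_inv_eq]

theorem integral_ker (F : Finset (G →ₜ* Circle)) (hF : #F ≠ 0) : ∫ g, ker F g ∂μ = 1 := by
  have h1 := integral_ker_mul (μ := μ) F 1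
  have h2 : ∀ g : G, (ker F g : ℂ) * ((1 : G →ₜ* Circle) g : ℂ) = ((ker F g : ℝ) : ℂ) := by
    intro g
    rw [chi_one, Circle.coe_one, mul_one]
  simp only [h2] at h1
  rw [integral_complex_ofReal, rep_one, inv_mul_cancel₀ (by exact_mod_cast hF)] at h1
  exact_mod_cast h1

/-- Many characters with large coefficients. -/
theorem card_large (F : Finset (G →ₜ* Circle)) (hF : #(dq F) ≤ 2 * #F) :
    (#F : ℝ) / 2 ≤ #((dq F).filter fun J => (1 / 4 : ℝ) ≤ (#F : ℝ)⁻¹ * rep F J) := by
  classical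
  rcases Nat.eq_zero_or_pos #F with h0 | h0
  · rw [h0]; simp
  have h0' : (0:ℝ) < #F := by exact_mod_cast h0
  have h1 : ∑ J ∈ dq F, (#F : ℝ)⁻¹ * rep F J = #F := by
    rw [← Finset.mul_sum, ← Nat.cast_sum, sum_rep]
    push_cast
    field_simp
  have h2 : ∑ J ∈ dq F, (#F : ℝ)⁻¹ * rep F J ≤
      ∑ J ∈ dq F, ((if (1 / 4 : ℝ) ≤ (#F : ℝ)⁻¹ * rep F J then 1 else 0) + 1 / 4) := by
    refine Finset.sum_le_sum fun J _ => ?_
    split_ifs with h
    · have h3 : (#F : ℝ)⁻¹ * rep F J ≤ 1 := by
        rw [inv_mul_le_iff₀ h0', mul_one]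
        exact_mod_cast rep_le F J
      linarith
    · rw [not_le] at h
      linarith
  rw [h1, Finset.sum_add_distrib, Finset.sum_const, nsmul_eq_mul, Finset.sum_boole] at h2
  have h3 : (#(dq F) : ℝ) ≤ 2 * #F := by exact_mod_cast hF
  linarith

/-- Convolution with the kernel. -/
theorem exists_conv {E : Type*} [NormedAddCommGroup E] [NormedSpace ℝ E] [CompleteSpace E]
    (e : E →L[ℝ] C(G, ℂ)) (he : Function.Injective e)
    (τ : G → E → E) (hτ : ∀ g f x, e (τ g f) x = e f (x * g))
    (hn : ∀ g f, ‖τ g f‖ = ‖f‖) (hc : ∀ f, Continuous fun g => τ g f)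
    (μ : Measure G) [IsProbabilityMeasure μ] [μ.IsMulLeftInvariant]
    (F : Finset (G →ₜ* Circle)) (hF : #F ≠ 0) :
    ∃ T : E →L[ℝ] E, (∀ f, ‖T f‖ ≤ ‖f‖) ∧
      ∀ f x, e (T f) x = ∫ g, (ker F g : ℂ) * e f (x * g) ∂μ := by
  have hadd : ∀ g f f', τ g (f + f') = τ g f + τ g f' := by
    intro g f f'
    apply he
    ext x
    simp [hτ]
  have hsmul : ∀ g (c : ℝ) f, τ g (c • f) = c • τ g f := by
    intro g c f
    apply he
    ext x
    simp [hτ]
  have hint : ∀ f, Integrable (fun g => ker F g • τ g f) μ := fun f =>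
    integrable_cont ((continuous_ker F).smul (hc f))
  have hkint : Integrable (ker F) μ := integrable_cont (continuous_ker F)
  have hb : ∀ f, ‖∫ g, ker F g • τ g f ∂μ‖ ≤ ‖f‖ := by
    intro f
    refine (norm_integral_le_integral_norm _).trans ?_
    have h1 : ∀ g, ‖ker F g • τ g f‖ = ker F g * ‖f‖ := fun g => by
      rw [norm_smul, hn, Real.norm_of_nonneg (ker_nonneg F g)]
    simp only [h1]
    rw [integral_mul_const, integral_ker F hF, one_mul]
  let T : E →L[ℝ] E := LinearMap.mkContinuous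
    { toFun := fun f => ∫ g, ker F g • τ g f ∂μ
      map_add' := by
        intro f f'
        simp only [hadd, smul_add]
        exact integral_add (hint f) (hint f')
      map_smul' := by
        intro c f
        simp only [hsmul, RingHom.id_apply]
        rw [← integral_smul]
        refine integral_congr_ae (Filter.Eventually.of_forall fun g => ?_)
        exact smul_comm _ _ _ } 1 (by
    intro f
    rw [one_mul]
    exact hb f)
  have hT : ∀ f, T f = ∫ g, ker F g • τ g f ∂μ := fun _ => rfl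
  refine ⟨T, fun f => by rw [hT]; exact hb f, ?_⟩
  intro f x
  let L : E →L[ℝ] ℂ := (ContinuousMap.evalCLM ℝ x).comp e
  have h1 := (ContinuousLinearMap.integral_comp_comm L (hint f)).symm
  rw [hT]
  refine h1.trans ?_
  refine integral_congr_ae (Filter.Eventually.of_forall fun g => ?_)
  change e (ker F g • τ g f) x = _
  rw [map_smul, ContinuousMap.smul_apply, hτ, Complex.real_smul]

end

end Vale.Agent.P111.WF
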