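import Vale.Agent.P111.WF.Iter
import Vale.Agent.P111.TW.Hilb

/-!
The a priori bound for operators which factor through a Hilbert space.
-/

set_option linter.unusedSectionVars false

namespace Vale.Agent.P111.WF

open Finset Vale.Agent.P111 Vale.Agent.P111.TK Vale.Agent.P111.TW

/-- Bessel's inequality for the real parts of the characters. -/
theorem bessel_re {G H : Type*} [AddCommGroup G] [Fintype G] [NormedAddCommGroup H]
    [InnerProductSpace ℝ H] (h : G → H) :
    ∑ b : AddChar G ℂ, ‖avg fun x => (b x).re • h x‖ ^ 2 ≤ avg fun x => ‖h x‖ ^ 2 := by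
  classical
  have hb := bessel_hilbert (fun (b : AddChar G ℂ) x => hart b x) avg_hart_mul_hart h
  refine le_trans ?_ hb
  have h1 : ∀ b : AddChar G ℂ, ‖avg fun x => (b x).re • h x‖ ^ 2 ≤
      (1 / 2) * ‖avg fun x => hart b x • h x‖ ^ 2 +
      (1 / 2) * ‖avg fun x => hart (-b) x • h x‖ ^ 2 := by
    intro b
    have h5 : (avg fun x => (b x).re • h x) =
        (1 / 2 : ℝ) • ((avg fun x => hart b x • h x) + avg fun x => hart (-b) x • h x) := by
      rw [← avg_add, ← avg_smul]
      refine avg_congr fun x => ?_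
      rw [re_eq_hart, ← add_smul, smul_smul]
      congr 1
      ring
    rw [h5, norm_smul]
    have h7 := norm_add_le (avg fun x => hart b x • h x) (avg fun x => hart (-b) x • h x)
    have h8 : ‖(1 / 2 : ℝ)‖ = 1 / 2 := by norm_num
    rw [h8]
    have h9 := norm_nonneg ((avg fun x => hart b x • h x) + avg fun x => hart (-b) x • h x)
    nlinarith [sq_nonneg (‖avg fun x => hart b x • h x‖ - ‖avg fun x => hart (-b) x • h x‖),
      norm_nonneg (avg fun x => hart b x • h x), norm_nonneg (avg fun x => hart (-b) x • h x)]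
  refine (Finset.sum_le_sum fun b _ => h1 b).trans (le_of_eq ?_)
  rw [Finset.sum_add_distrib, ← Finset.mul_sum, ← Finset.mul_sum]
  have h2 : ∑ b : AddChar G ℂ, ‖avg fun x => hart (-b) x • h x‖ ^ 2 =
      ∑ b : AddChar G ℂ, ‖avg fun x => hart b x • h x‖ ^ 2 :=
    Equiv.sum_comp (Equiv.neg _) fun b : AddChar G ℂ => ‖avg fun x => hart b x • h x‖ ^ 2
  rw [h2]
  ring

/-- Chebyshev's inequality. -/
theorem card_mul_sq_le {ι : Type*} [Fintype ι] (f : ι → ℝ) {e D : ℝ} (he : 0 < e)
    (h : ∑ i, f i ^ 2 ≤ D) : (#(Finset.univ.filter fun i => e ≤ f i) : ℝ) * e ^ 2 ≤ D := by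
  classical
  calc (#(Finset.univ.filter fun i => e ≤ f i) : ℝ) * e ^ 2
      = ∑ _i ∈ Finset.univ.filter fun i => e ≤ f i, e ^ 2 := by
        rw [Finset.sum_const, nsmul_eq_mul]
    _ ≤ ∑ i ∈ Finset.univ.filter fun i => e ≤ f i, f i ^ 2 := by
        refine Finset.sum_le_sum fun i hi => ?_
        have h1 := (Finset.mem_filter.mp hi).2
        gcongr
    _ ≤ ∑ i, f i ^ 2 := Finset.sum_le_sum_of_subset_of_nonneg (Finset.filter_subset _ _)
          fun _ _ _ => sq_nonneg _
    _ ≤ D := h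

/-- Operators which factor through a Hilbert space. -/
theorem countF_hilbert {X : Type*} [NormedAddCommGroup X] [NormedSpace ℝ X] {H : Type*}
    [NormedAddCommGroup H] [InnerProductSpace ℝ H] [CompleteSpace H] (a : X →L[ℝ] H)
    (b : H →L[ℝ] X) : CountF (b.comp a) ((‖a‖ * ‖b‖) ^ 2) := by
  classical
  intro G _ _ θ hθ e he
  -- the representing vectors
  set h : G → H := fun x => (InnerProductSpace.toDual ℝ H).symm ((θ x).comp b) with hh
  have hhn : ∀ x, ‖h x‖ ≤ ‖b‖ := by
    intro x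
    rw [hh, LinearIsometryEquiv.norm_map]
    refine (ContinuousLinearMap.opNorm_comp_le _ _).trans ?_
    calc ‖θ x‖ * ‖b‖ ≤ 1 * ‖b‖ := mul_le_mul_of_nonneg_right (hθ x) (norm_nonneg _)
      _ = ‖b‖ := one_mul _
  have hνh : ∀ x y, θ x (b y) = inner ℝ (h x) y := by
    intro x y
    rw [hh, InnerProductSpace.toDual_symm_apply]
    rfl
  have hcoef : ∀ c : AddChar G ℂ,
      ‖fcr (b.comp a) θ c‖ ≤ ‖a‖ * ‖avg fun x => (c x).re • h x‖ := by
    intro c
    refine ContinuousLinearMap.opNorm_le_bound _ (by positivity) fun y => ?_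
    have h1 : fcr (b.comp a) θ c y = inner ℝ (avg fun x => (c x).re • h x) (a y) := by
      unfold fcr
      rw [avg_apply']
      have h2 := map_avg ((innerSL ℝ (a y) : H →L[ℝ] ℝ).toLinearMap) fun x => (c x).re • h x
      simp only [ContinuousLinearMap.coe_coe, innerSL_apply_apply] at h2
      rw [real_inner_comm, h2]
      refine avg_congr fun x => ?_
      rw [_root_.smul_apply, ContinuousLinearMap.comp_apply, ContinuousLinearMap.comp_apply, hνh,
        inner_smul_right, real_inner_comm, smul_eq_mul]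
    rw [h1]
    calc ‖inner ℝ (avg fun x => (c x).re • h x) (a y)‖
        ≤ ‖avg fun x => (c x).re • h x‖ * ‖a y‖ := norm_inner_le_norm _ _
      _ ≤ ‖avg fun x => (c x).re • h x‖ * (‖a‖ * ‖y‖) := by
          gcongr
          exact a.le_opNorm y
      _ = _ := by ring
  have hbes := bessel_re h
  have hav : (avg fun x => ‖h x‖ ^ 2) ≤ ‖b‖ ^ 2 := by
    have h1 : (avg fun x => ‖h x‖ ^ 2) ≤ avg fun _ : G => ‖b‖ ^ 2 := by
      refine avg_mono fun x => ?_
      have := hhn x
      gcongr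
    refine h1.trans (le_of_eq ?_)
    exact avg_const _
  refine card_mul_sq_le (fun c : AddChar G ℂ => ‖fcr (b.comp a) θ c‖) he ?_
  have h2 : ∑ c : AddChar G ℂ, ‖fcr (b.comp a) θ c‖ ^ 2 ≤
      ‖a‖ ^ 2 * ∑ c : AddChar G ℂ, ‖avg fun x => (c x).re • h x‖ ^ 2 := by
    rw [Finset.mul_sum]
    refine Finset.sum_le_sum fun c _ => ?_
    rw [← mul_pow]
    exact pow_le_pow_left₀ (norm_nonneg _) (hcoef c) 2
  refine h2.trans ?_
  rw [mul_pow]
  exact mul_le_mul_of_nonneg_left (hbes.trans hav) (sq_nonneg _)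

end Vale.Agent.P111.WF
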