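import Vale.Agent.P111.WF.Step

/-!
Fourier systems on finite abelian groups: the iteration, and the final theorems.
-/

set_option linter.unusedSectionVars false

namespace Vale.Agent.P111.WF

open Finset Vale.Agent.P111 Vale.Agent.P111.TK Vale.Agent.P111.TW

theorem cotype_mono {q C C' : ℝ} {Y : Type*} [NormedAddCommGroup Y] [NormedSpace ℝ Y]
    (h : CotypeWith q C Y) (hC : C ≤ C') : CotypeWith q C' Y := by
  intro n y
  refine (h n y).trans (mul_le_mul_of_nonneg_right hC ?_)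
  exact Real.rpow_nonneg (avg_nonneg fun _ => sq_nonneg _) _

/-- The iteration: `j` squarings. -/
theorem iter (q r C : ℝ) (hq : 2 ≤ q) (hr : 2 ≤ r) (hC : 1 ≤ C) (j : ℕ) :
    ∀ ρ : ℝ, 1 ≤ ρ → ∃ L : ℝ, 1 ≤ L ∧ ∀ (X : Type*) [NormedAddCommGroup X] [NormedSpace ℝ X]
      (T : X →L[ℝ] X), CotypeWith q C X → CotypeWith r C (X →L[ℝ] ℝ) → ‖T‖ ≤ C →
      ∀ (G : Type) [AddCommGroup G] [Fintype G] (θ : G → (X →L[ℝ] ℝ)), (∀ x, ‖θ x‖ ≤ 1) →
      L ≤ #(Finset.univ.filter fun b => 1 / ρ ≤ ‖fcr T θ b‖) →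
      ∃ (G' : Type) (_ : AddCommGroup G') (_ : Fintype G') (θ' : G' → (X →L[ℝ] ℝ)),
        (∀ x, ‖θ' x‖ ≤ 1) ∧
        (#(Finset.univ.filter fun b => 1 / ρ ≤ ‖fcr T θ b‖) : ℝ) ^ 2 ^ j ≤
          L * #(Finset.univ.filter fun b => 1 / L ≤ ‖fcr T θ' b‖) := by
  induction j with
  | zero =>
    intro ρ hρ
    refine ⟨ρ, hρ, ?_⟩
    intro X _ _ T hX hX' hT G _ _ θ hθ _
    refine ⟨G, inferInstance, inferInstance, θ, hθ, ?_⟩
    rw [pow_zero, pow_one]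
    exact le_mul_of_one_le_left (Nat.cast_nonneg _) hρ
  | succ j ih =>
    intro ρ hρ
    obtain ⟨L, hL, h⟩ := ih ρ hρ
    obtain ⟨L', hL', h'⟩ := step q r C L hq hr hC hL
    have hLL' : 1 ≤ L * L' := one_le_mul_of_one_le_of_one_le hL hL'
    refine ⟨L ^ 2 * L', one_le_mul_of_one_le_of_one_le (one_le_pow₀ hL) hL', ?_⟩
    intro X _ _ T hX hX' hT G _ _ θ hθ hN
    have hLLN : L * L' ≤ #(Finset.univ.filter fun b => 1 / ρ ≤ ‖fcr T θ b‖) := by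
      refine le_trans ?_ hN
      rw [pow_two, mul_assoc]
      exact le_mul_of_one_le_left (by linarith) hL
    have hLN : L ≤ #(Finset.univ.filter fun b => 1 / ρ ≤ ‖fcr T θ b‖) :=
      le_trans (le_mul_of_one_le_right (by linarith) hL') hLLN
    obtain ⟨G', i₁, i₂, θ', hθ', h1⟩ := h X T hX hX' hT G θ hθ hLN
    obtain ⟨n, hn⟩ : ∃ n : ℝ, n = #(Finset.univ.filter fun b => 1 / ρ ≤ ‖fcr T θ b‖) := ⟨_, rfl⟩
    obtain ⟨n', hn'⟩ : ∃ n' : ℝ, n' = #(Finset.univ.filter fun b => 1 / L ≤ ‖fcr T θ' b‖) :=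
      ⟨_, rfl⟩
    rw [← hn] at hLLN h1 ⊢
    rw [← hn'] at h1
    have hn1 : 1 ≤ n := hLL'.trans hLLN
    have h2 : L' ≤ n' := by
      have h3 : n ≤ n ^ 2 ^ j := le_self_pow₀ hn1 (by positivity)
      have h4 : L * L' ≤ L * n' := hLLN.trans (h3.trans h1)
      exact le_of_mul_le_mul_left h4 (by linarith)
    rw [hn'] at h2
    obtain ⟨M', θ'', hθ'', h3⟩ := h' X T hX hX' hT G' θ' hθ'
      (Finset.univ.filter fun b => 1 / L ≤ ‖fcr T θ' b‖)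
      (fun b hb => (Finset.mem_filter.mp hb).2) h2
    refine ⟨Fin M' → G', inferInstance, inferInstance, θ'', hθ'', ?_⟩
    rw [← hn'] at h3
    have h4 : (#(Finset.univ.filter fun b => 1 / L' ≤ ‖fcr T θ'' b‖) : ℝ) ≤
        #(Finset.univ.filter fun b => 1 / (L ^ 2 * L') ≤ ‖fcr T θ'' b‖) := by
      have h5 : (Finset.univ.filter fun b => 1 / L' ≤ ‖fcr T θ'' b‖) ⊆
          Finset.univ.filter fun b => 1 / (L ^ 2 * L') ≤ ‖fcr T θ'' b‖ := by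
        intro b hb
        rw [Finset.mem_filter] at hb ⊢
        refine ⟨hb.1, le_trans ?_ hb.2⟩
        apply one_div_le_one_div_of_le (by linarith)
        exact le_mul_of_one_le_left (by linarith) (one_le_pow₀ hL)
      exact_mod_cast Finset.card_le_card h5
    have hn0 : 0 ≤ n := by linarith
    calc n ^ 2 ^ (j + 1) = (n ^ 2 ^ j) ^ 2 := by rw [← pow_mul, pow_succ]
      _ ≤ (L * n') ^ 2 := pow_le_pow_left₀ (by positivity) h1 2
      _ = L ^ 2 * n' ^ 2 := by ring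
      _ ≤ L ^ 2 * (L' * #(Finset.univ.filter fun b => 1 / L' ≤ ‖fcr T θ'' b‖)) :=
          mul_le_mul_of_nonneg_left h3 (by positivity)
      _ ≤ L ^ 2 * (L' * #(Finset.univ.filter fun b => 1 / (L ^ 2 * L') ≤ ‖fcr T θ'' b‖)) :=
          mul_le_mul_of_nonneg_left (mul_le_mul_of_nonneg_left h4 (by linarith)) (by positivity)
      _ = _ := by ring

/-- The a priori bound for the number of large Fourier coefficients of `T^* θ`. -/
def CountF {X : Type*} [NormedAddCommGroup X] [NormedSpace ℝ X] (T : X →L[ℝ] X) (d : ℝ) : Prop :=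
  ∀ (G : Type) [AddCommGroup G] [Fintype G] (θ : G → (X →L[ℝ] ℝ)), (∀ x, ‖θ x‖ ≤ 1) →
    ∀ e : ℝ, 0 < e → (#(Finset.univ.filter fun b => e ≤ ‖fcr T θ b‖) : ℝ) * e ^ 2 ≤ d

/-- Operators of finite rank. -/
theorem countF_rank {X : Type*} [NormedAddCommGroup X] [NormedSpace ℝ X] (T : X →L[ℝ] X)
    [FiniteDimensional ℝ (LinearMap.range (T : X →ₗ[ℝ] X))] :
    CountF T (8 * ‖T‖ ^ 2 * Module.finrank ℝ (LinearMap.range (T : X →ₗ[ℝ] X))) := by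
  intro G _ _ θ hθ e he
  have h := count_fcr T le_rfl he θ hθ
  have h1 : (e / 2) ^ 2 = e ^ 2 / 4 := by ring
  rw [h1] at h
  linarith

/-- **Theorem W+ for finite abelian groups, abstract form.** -/
theorem op_abs (q r C ε : ℝ) (A : ℕ) (hq : 2 ≤ q) (hr : 2 ≤ r) (hε : 0 < ε) :
    ∃ K : ℝ, 0 < K ∧ ∀ (X : Type*) [NormedAddCommGroup X] [NormedSpace ℝ X]
      (T : X →L[ℝ] X) (d : ℝ), CotypeWith q C X → CotypeWith r C (X →L[ℝ] ℝ) → ‖T‖ ≤ C →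
      CountF T d →
      ∀ (G : Type) [AddCommGroup G] [Fintype G] (θ : G → (X →L[ℝ] ℝ)), (∀ x, ‖θ x‖ ≤ 1) →
      (#(Finset.univ.filter fun b => ε ≤ ‖fcr T θ b‖) : ℝ) ^ A ≤ K * max 1 d := by
  obtain ⟨C', hC'⟩ : ∃ C' : ℝ, C' = max 1 C := ⟨_, rfl⟩
  have hC1 : 1 ≤ C' := hC' ▸ le_max_left _ _
  have hCC' : C ≤ C' := hC' ▸ le_max_right _ _
  obtain ⟨ρ, hρ⟩ : ∃ ρ : ℝ, ρ = max 1 (1 / ε) := ⟨_, rfl⟩
  have hρ1 : 1 ≤ ρ := hρ ▸ le_max_left _ _
  have hρε : 1 / ρ ≤ ε := by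
    rw [div_le_iff₀ (by linarith)]
    have : 1 / ε ≤ ρ := hρ ▸ le_max_right _ _
    rw [div_le_iff₀ hε] at this
    linarith
  obtain ⟨L, hL, h⟩ := iter q r C' hq hr hC1 A ρ hρ1
  refine ⟨L ^ 2 ^ A + L ^ 3, by positivity, ?_⟩
  intro X _ _ T d hX hX' hT hd G _ _ θ hθ
  have hm1 : 1 ≤ max 1 d := le_max_left _ _
  have hm2 : d ≤ max 1 d := le_max_right _ _
  -- reduce to `1 / ρ`
  obtain ⟨N, hN⟩ : ∃ N : ℕ, N = #(Finset.univ.filter fun b => 1 / ρ ≤ ‖fcr T θ b‖) := ⟨_, rfl⟩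
  have hNε : #(Finset.univ.filter fun b => ε ≤ ‖fcr T θ b‖) ≤ N := by
    rw [hN]
    refine Finset.card_le_card fun b hb => ?_
    rw [Finset.mem_filter] at hb ⊢
    exact ⟨hb.1, hρε.trans hb.2⟩
  have hpow : (#(Finset.univ.filter fun b => ε ≤ ‖fcr T θ b‖) : ℝ) ^ A ≤
      max 1 ((N : ℝ) ^ 2 ^ A) := by
    have h0 : (#(Finset.univ.filter fun b => ε ≤ ‖fcr T θ b‖) : ℝ) ^ A ≤ (N : ℝ) ^ A :=
      pow_le_pow_left₀ (by positivity) (by exact_mod_cast hNε) A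
    rcases Nat.eq_zero_or_pos N with h1 | h1
    · rw [h1] at h0
      refine h0.trans (le_trans ?_ (le_max_left _ _))
      rw [Nat.cast_zero]
      exact pow_le_one₀ le_rfl zero_le_one
    · refine h0.trans (le_trans ?_ (le_max_right _ _))
      exact pow_le_pow_right₀ (by exact_mod_cast h1) (Nat.lt_two_pow_self).le
  refine hpow.trans (max_le ?_ ?_)
  · have h1 : 1 ≤ L ^ 2 ^ A := one_le_pow₀ hL
    have h2 : 0 ≤ L ^ 3 := by positivity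
    exact one_le_mul_of_one_le_of_one_le (by linarith) hm1
  by_cases hLN : L ≤ N
  · rw [hN] at hLN
    have hX₁ : CotypeWith q C' X := cotype_mono hX hCC'
    have hX₂ : CotypeWith r C' (X →L[ℝ] ℝ) := cotype_mono hX' hCC'
    obtain ⟨G', i₁, i₂, θ', hθ', h1⟩ := h X T hX₁ hX₂ (hT.trans hCC') G θ hθ hLN
    rw [← hN] at h1
    have h2 := hd G' θ' hθ' (1 / L) (by positivity)
    obtain ⟨N', hN'⟩ : ∃ N' : ℝ, N' = #(Finset.univ.filter fun b => 1 / L ≤ ‖fcr T θ' b‖) :=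
      ⟨_, rfl⟩
    rw [← hN'] at h1 h2
    have hL0 : 0 < L := by linarith
    have h3 : N' ≤ L ^ 2 * d := by
      rw [one_div, inv_pow, ← div_eq_mul_inv, div_le_iff₀ (by positivity)] at h2
      linarith
    have hN'0 : 0 ≤ N' := by rw [hN']; positivity
    have hd0 : 0 ≤ d := by
      have h4 : 0 ≤ L ^ 2 * d := hN'0.trans h3
      exact nonneg_of_mul_nonneg_right h4 (by positivity)
    calc (N : ℝ) ^ 2 ^ A ≤ L * N' := h1
      _ ≤ L * (L ^ 2 * d) := mul_le_mul_of_nonneg_left h3 hL0.le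
      _ = L ^ 3 * d := by ring
      _ ≤ (L ^ 2 ^ A + L ^ 3) * max 1 d := by
          refine mul_le_mul ?_ hm2 hd0 (by positivity)
          have : 0 ≤ L ^ 2 ^ A := by positivity
          linarith
  · rw [not_le] at hLN
    calc (N : ℝ) ^ 2 ^ A ≤ L ^ 2 ^ A := pow_le_pow_left₀ (by positivity) hLN.le _
      _ ≤ L ^ 2 ^ A + L ^ 3 := by
          have : 0 ≤ L ^ 3 := by positivity
          linarith
      _ ≤ _ := le_mul_of_one_le_right (by positivity) hm1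

/-- **Theorem W+ for finite abelian groups, operator form.** -/
theorem op_main (q r C ε : ℝ) (A : ℕ) (hq : 2 ≤ q) (hr : 2 ≤ r) (hε : 0 < ε) :
    ∃ K : ℝ, 0 < K ∧ ∀ (X : Type*) [NormedAddCommGroup X] [NormedSpace ℝ X]
      (T : X →L[ℝ] X), CotypeWith q C X → CotypeWith r C (X →L[ℝ] ℝ) → ‖T‖ ≤ C →
      FiniteDimensional ℝ (LinearMap.range (T : X →ₗ[ℝ] X)) →
      ∀ (G : Type) [AddCommGroup G] [Fintype G] (θ : G → (X →L[ℝ] ℝ)), (∀ x, ‖θ x‖ ≤ 1) →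
      (#(Finset.univ.filter fun b => ε ≤ ‖fcr T θ b‖) : ℝ) ^ A ≤
        K * max 1 (Module.finrank ℝ (LinearMap.range (T : X →ₗ[ℝ] X)) : ℝ) := by
  obtain ⟨K, hK, h⟩ := op_abs q r C ε A hq hr hε
  refine ⟨K * (1 + 8 * C ^ 2), by positivity, ?_⟩
  intro X _ _ T hX hX' hT hfd G _ _ θ hθ
  refine (h X T _ hX hX' hT (countF_rank T) G θ hθ).trans ?_
  rw [mul_assoc K]
  refine mul_le_mul_of_nonneg_left ?_ hK.le
  obtain ⟨R, hR⟩ : ∃ R : ℝ, R = Module.finrank ℝ (LinearMap.range (T : X →ₗ[ℝ] X)) := ⟨_, rfl⟩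
  rw [← hR]
  have hR0 : 0 ≤ R := by rw [hR]; positivity
  have hm1 : 1 ≤ max 1 R := le_max_left _ _
  have hm2 : R ≤ max 1 R := le_max_right _ _
  have hTC : ‖T‖ ^ 2 ≤ C ^ 2 := pow_le_pow_left₀ (norm_nonneg _) hT 2
  refine max_le ?_ ?_
  · nlinarith [sq_nonneg C]
  · calc 8 * ‖T‖ ^ 2 * R ≤ 8 * C ^ 2 * R := by gcongr
      _ ≤ 8 * C ^ 2 * max 1 R := by gcongr
      _ ≤ _ := by nlinarith [sq_nonneg C]

end Vale.Agent.P111.WF
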