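import Vale.Agent.P111.WF.Gen
import Vale.Agent.P111.WF.Chars
import Vale.Agent.P111.TW.Step
import Vale.Agent.P111.TW.Cnt

/-!
Fourier systems on finite abelian groups: the step of the iteration.
-/

set_option linter.unusedSectionVars false

namespace Vale.Agent.P111.WF

open Finset Vale.Agent.P111 Vale.Agent.P111.TK Vale.Agent.P111.TW

section

variable {M M' : ℕ} {X : Type*} [NormedAddCommGroup X] [NormedSpace ℝ X]
  {G : Type*} [AddCommGroup G] [Fintype G]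

/-- The real parts of the Fourier coefficients of `T^* θ`. -/
noncomputable def fcr (T : X →L[ℝ] X) (θ : G → (X →L[ℝ] ℝ)) (b : AddChar G ℂ) : X →L[ℝ] ℝ :=
  avg fun x : G => (b x).re • (θ x).comp T

/-- The contradiction. -/
theorem no_good (q r C ρ : ℝ) (hq : 2 ≤ q) (hr : 2 ≤ r) (hC : 1 ≤ C) (hρ : 1 ≤ ρ) :
    ∃ M M' : ℕ, M ≠ 0 ∧ M' ≠ 0 ∧ ∀ (X : Type*) [NormedAddCommGroup X] [NormedSpace ℝ X]
      (T : X →L[ℝ] X), CotypeWith r C (X →L[ℝ] ℝ) → ‖T‖ ≤ C →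
      ∀ (G : Type) [AddCommGroup G] [Fintype G] (θ : G → (X →L[ℝ] ℝ)), (∀ x, ‖θ x‖ ≤ 1) →
      ∀ (ν : (Fin M' → G) → (Fin M' → ℤˣ) → (X →L[ℝ] ℝ)),
      (∀ x δ, ‖ν x δ‖ ≤ 3 * C * (M' : ℝ) ^ (1 - 1 / q)) → (∀ x δ, ν x (-δ) = - ν x δ) →
      (∀ x k, wc {k} (ν x) = θ (x k)) →
      ∀ J : Fin M → AddChar G ℂ, (∀ T : Finset (Fin M), T.Nonempty → ∀ σ, ssum J T σ ≠ 0) →
      (∀ i, 1 / ρ ≤ ‖fcr T θ (J i)‖) →
      ¬ ∀ g : Fin M' → Finset (Fin M), Two g → ∀ σ : Fin M' → Fin M → ℤˣ,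
        ‖avg fun x : Fin M' → G => (pc (fun k => ssum J (g k) (σ k)) x).re •
          (wc (oddU g) (ν x)).comp T‖ ≤ (((2 : ℝ) ^ M) ^ M')⁻¹ := by
  have hC0 : 0 ≤ C := by linarith
  have hρ0 : 0 ≤ ρ := by linarith
  have hC₁ : 1 ≤ 6 * C ^ 2 * ρ := by
    have h1 : 1 ≤ C ^ 2 := one_le_pow₀ hC
    have h2 : 1 ≤ C ^ 2 * ρ := one_le_mul_of_one_le_of_one_le h1 hρ
    linarith
  obtain ⟨M, M', hM, hM', hcore⟩ := SY.vcore' q r (6 * C ^ 2 * ρ) hq hr hC₁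
  refine ⟨M, M', hM, hM', ?_⟩
  intro X _ _ T hX' hT G _ _ θ hθ ν hν hνo hνk J hJ hJρ hgen
  obtain ⟨a, ha⟩ : ∃ a : ℝ, a = (M : ℝ) ^ (1 - 1 / r) := ⟨_, rfl⟩
  obtain ⟨a', ha'⟩ : ∃ a' : ℝ, a' = (M' : ℝ) ^ (1 - 1 / q) := ⟨_, rfl⟩
  have ha1 : 1 ≤ a := by rw [ha]; exact SY.rpow_ge_one hM hr
  have ha1' : 1 ≤ a' := by rw [ha']; exact SY.rpow_ge_one hM' hq
  rw [← ha, ← ha'] at hcore
  rw [← ha'] at hν
  choose e he1 he2 using fun i => exists_unit (fcr T θ (J i)) hρ (hJρ i)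
  obtain ⟨Z, hZ1, hZ2, hZ3⟩ := lift_sup hr hC0 (by positivity : 0 ≤ 2 * ρ) hX'
    (fun i => NormedSpace.inclusionInDoubleDual ℝ X (e i)) (fun i =>
      (NormedSpace.double_dual_bound ℝ X (e i)).trans (he1 i))
  rw [← ha] at hZ1
  have hν' : ∀ x δ, ‖(ν x δ).comp T‖ ≤ 3 * C * a' * C := fun x δ =>
    (ContinuousLinearMap.opNorm_comp_le _ _).trans
      (mul_le_mul (hν x δ) hT (norm_nonneg _) (by positivity))
  have hη : ∀ x, ‖(θ x).comp T‖ ≤ C := fun x => by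
    refine (ContinuousLinearMap.opNorm_comp_le _ _).trans ?_
    calc ‖θ x‖ * ‖T‖ ≤ 1 * C := mul_le_mul (hθ x) hT (norm_nonneg _) zero_le_one
      _ = C := one_mul C
  have hνo' : ∀ (x : Fin M' → G) (δ : Fin M' → ℤˣ),
      (ν x (-δ)).comp T = -((ν x δ).comp T) := by
    intro x δ
    rw [hνo]
    rfl
  have hνk' : ∀ (x : Fin M' → G) (k : Fin M'),
      wc {k} (fun δ => (ν x δ).comp T) = (θ (x k)).comp T := by
    intro x k
    rw [wc_comp, hνk]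
  have hζη : ∀ i, (wc {i} Z) (avg fun x : G => (J i x).re • (θ x).comp T) = 1 := by
    intro i
    rw [hZ3 i]
    exact he2 i
  have hE : (0:ℝ) < ((2 : ℝ) ^ M) ^ M' := by positivity
  have hgen' : ∀ g : Fin M' → Finset (Fin M), Two g →
      ‖nh (fun i z => (J i z).re) (fun x δ => (ν x δ).comp T) (oddU g) g‖ ≤
        (((2 : ℝ) ^ M) ^ M')⁻¹ := by
    intro g hg
    unfold nh
    refine norm_avg_PP_le J g _ fun σ => ?_
    have h1 := hgen g hg σ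
    have h2 : ∀ x : Fin M' → G, wc (oddU g) (fun δ => (ν x δ).comp T) =
        (wc (oddU g) (ν x)).comp T := fun x => wc_comp T _ _
    simp only [h2]
    exact h1
  have hyp := vhyp (ρ := fun i z => (J i z).re) (ν := fun x δ => (ν x δ).comp T)
    (η := fun x => (θ x).comp T) (fun i z => abs_re_char (J i) z)
    (fun S hS => avg_prod_re_eq_zero fun σ => hJ S hS σ) hη hζη hZ1
    hν' (inv_nonneg.mpr hE.le) hZ2 hνo' hνk' hgen'
  refine hcore _ _ (hyp.mono ?_ ?_ ?_)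
  · have : 3 * C * (2 * ρ) * a * C = 6 * C ^ 2 * ρ * a := by ring
    exact this.le
  · exact (numerics2 hC hρ ha1 ha1').1
  · refine le_trans (le_of_eq ?_) (numerics2 hC hρ ha1 ha1').2
    have h1 : ((2 : ℝ) ^ M) ^ M' * (3 * C * (2 * ρ) * a * (((2 : ℝ) ^ M) ^ M')⁻¹) =
        3 * C * (2 * ρ) * a := by
      field_simp
    rw [h1]

/-- The step of the iteration. -/
theorem step (q r C ρ : ℝ) (hq : 2 ≤ q) (hr : 2 ≤ r) (hC : 1 ≤ C) (hρ : 1 ≤ ρ) :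
    ∃ L : ℝ, 1 ≤ L ∧ ∀ (X : Type*) [NormedAddCommGroup X] [NormedSpace ℝ X]
      (T : X →L[ℝ] X), CotypeWith q C X → CotypeWith r C (X →L[ℝ] ℝ) → ‖T‖ ≤ C →
      ∀ (G : Type) [AddCommGroup G] [Fintype G] (θ : G → (X →L[ℝ] ℝ)), (∀ x, ‖θ x‖ ≤ 1) →
      ∀ Λ : Finset (AddChar G ℂ), (∀ b ∈ Λ, 1 / ρ ≤ ‖fcr T θ b‖) → L ≤ #Λ →
      ∃ (M' : ℕ) (θ' : (Fin M' → G) → (X →L[ℝ] ℝ)), (∀ x, ‖θ' x‖ ≤ 1) ∧
        (#Λ : ℝ) ^ 2 ≤ L * #(Finset.univ.filter fun b => 1 / L ≤ ‖fcr T θ' b‖) := by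
  classical
  obtain ⟨M, M', hM, hM', hno⟩ := no_good q r C ρ hq hr hC hρ
  have hC0 : 0 ≤ C := by linarith
  obtain ⟨e', he'⟩ : ∃ e' : ℝ, e' = (((2 : ℝ) ^ M) ^ M')⁻¹ := ⟨_, rfl⟩
  have he'0 : 0 < e' := by rw [he']; positivity
  obtain ⟨β, hβ⟩ : ∃ β : ℝ, β = 3 * C * (M' : ℝ) ^ (1 - 1 / q) := ⟨_, rfl⟩
  have hβ1 : 1 ≤ β := by
    rw [hβ]
    have := SY.rpow_ge_one hM' hq
    nlinarith
  have hβ0 : 0 < β := by linarith
  obtain ⟨N₀, hN₀⟩ : ∃ N₀ : ℕ, N₀ = 2 * (2 ^ M * 2 ^ M) + 1 := ⟨_, rfl⟩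
  obtain ⟨L₀, hL₀⟩ : ∃ L₀ : ℕ, L₀ = 2 * ((2 ^ M) ^ M' * (2 ^ M') ^ M) := ⟨_, rfl⟩
  refine ⟨L₀ * 2 ^ M' + β / e' + N₀, ?_, ?_⟩
  · have h1 : (0:ℝ) ≤ L₀ * 2 ^ M' := by positivity
    have h2 : 0 ≤ β / e' := by positivity
    have h3 : (1:ℝ) ≤ N₀ := by
      have : 1 ≤ N₀ := by omega
      exact_mod_cast this
    linarith
  intro X _ _ T hX hX' hT G _ _ θ hθ Λ hΛ hLΛ
  have hβe : 0 ≤ β / e' := by positivity
  have hlift : ∀ x : Fin M' → G, ∃ ν : (Fin M' → ℤˣ) → (X →L[ℝ] ℝ),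
      (∀ δ, ‖ν δ‖ ≤ 3 * C * 1 * (M' : ℝ) ^ (1 - 1 / q)) ∧ (∀ δ, ν (-δ) = - ν δ) ∧
      ∀ k, wc {k} ν = θ (x k) := fun x =>
    lift_sup hq hC0 zero_le_one hX (fun k => θ (x k)) (fun k => hθ (x k))
  choose ν hν1 hν2 hν3 using hlift
  simp only [mul_one] at hν1
  -- the coefficients
  obtain ⟨m, hm⟩ : ∃ m : Finset (Fin M') → AddChar (Fin M' → G) ℂ → (X →L[ℝ] ℝ),
      m = fun U b => avg fun x : Fin M' → G => (b x).re • (wc U (ν x)).comp T := ⟨_, rfl⟩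
  -- the bad set
  set B : Finset (Fin M' → AddChar G ℂ) := Finset.univ.filter fun b =>
    ∃ U, e' < ‖m U (pc b)‖ with hB
  have hkey : (#Λ : ℝ) ^ 2 ≤ L₀ * #B := by
    by_contra hlt
    rw [not_le] at hlt
    have h1 : 2 * (2 ^ M * 2 ^ M) < #Λ := by
      have h2 : (N₀ : ℝ) ≤ #Λ := by
        have : (0:ℝ) ≤ L₀ * 2 ^ M' := by positivity
        linarith
      have h3 : N₀ ≤ #Λ := by exact_mod_cast h2
      omega
    have h2 : 2 * ((2 ^ M) ^ M' * (2 ^ M') ^ M * #B) ≤ #Λ ^ 2 := by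
      have h3 : L₀ * #B < #Λ ^ 2 := by exact_mod_cast hlt
      rw [hL₀] at h3
      rw [← mul_assoc]
      exact h3.le
    obtain ⟨J, hJΛ, hJ, hJB⟩ := generic M M' Λ B h1 h2
    refine hno X T hX' hT G θ hθ ν hν1 hν2 hν3 J hJ (fun i => hΛ _ (hJΛ i)) fun g hg σ => ?_
    have h1 := hJB g hg (fun i k => σ k i)
    rw [hB, Finset.mem_filter, not_and] at h1
    have h2 := h1 (Finset.mem_univ _)
    push Not at h2
    rw [← he']
    have h3 := h2 (oddU g)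
    rw [hm] at h3
    exact h3
  -- one `U` is responsible for many of them
  have hU : ∃ U : Finset (Fin M'), (#B : ℝ) ≤ 2 ^ M' *
      #(Finset.univ.filter fun b : Fin M' → AddChar G ℂ => e' < ‖m U (pc b)‖) := by
    by_contra hc
    push Not at hc
    have h1 : (#B : ℝ) ≤ ∑ U : Finset (Fin M'),
        (#(Finset.univ.filter fun b : Fin M' → AddChar G ℂ => e' < ‖m U (pc b)‖) : ℝ) := by
      have h2 : B ⊆ Finset.univ.biUnion fun U : Finset (Fin M') =>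
          Finset.univ.filter fun b : Fin M' → AddChar G ℂ => e' < ‖m U (pc b)‖ := by
        intro b hb
        rw [hB, Finset.mem_filter] at hb
        obtain ⟨U, hU⟩ := hb.2
        rw [Finset.mem_biUnion]
        exact ⟨U, Finset.mem_univ _, Finset.mem_filter.mpr ⟨Finset.mem_univ _, hU⟩⟩
      exact_mod_cast (Finset.card_le_card h2).trans Finset.card_biUnion_le
    have h3 : ∑ U : Finset (Fin M'),
        (#(Finset.univ.filter fun b : Fin M' → AddChar G ℂ => e' < ‖m U (pc b)‖) : ℝ) <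
        ∑ _U : Finset (Fin M'), (#B : ℝ) / 2 ^ M' := by
      refine Finset.sum_lt_sum_of_nonempty Finset.univ_nonempty fun U _ => ?_
      rw [lt_div_iff₀ (by positivity), mul_comm]
      exact hc U
    rw [Finset.sum_const, nsmul_eq_mul] at h3
    have h4 : (#(Finset.univ : Finset (Finset (Fin M'))) : ℝ) * ((#B : ℝ) / 2 ^ M') = #B := by
      have : (#(Finset.univ : Finset (Finset (Fin M'))) : ℝ) = 2 ^ M' := by simp
      rw [this]
      field_simp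
    rw [h4] at h3
    linarith
  obtain ⟨U, hU⟩ := hU
  refine ⟨M', fun x => β⁻¹ • wc U (ν x), ?_, ?_⟩
  · intro y
    rw [norm_smul, norm_inv, Real.norm_of_nonneg hβ0.le, inv_mul_le_iff₀ hβ0, mul_one]
    refine norm_wc_le U _ fun δ => ?_
    rw [hβ]
    exact hν1 _ _
  · have hfc : ∀ b : AddChar (Fin M' → G) ℂ,
        fcr T (fun x => β⁻¹ • wc U (ν x)) b = β⁻¹ • m U b := by
      intro b
      rw [fcr, hm]
      simp only
      rw [← avg_smul]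
      refine avg_congr fun x => ?_
      rw [ContinuousLinearMap.smul_comp, smul_comm]
    have h1 : #(Finset.univ.filter fun b : Fin M' → AddChar G ℂ => e' < ‖m U (pc b)‖) ≤
        #(Finset.univ.filter fun b : AddChar (Fin M' → G) ℂ =>
          1 / (L₀ * 2 ^ M' + β / e' + N₀) ≤ ‖fcr T (fun x => β⁻¹ • wc U (ν x)) b‖) := by
      refine Finset.card_le_card_of_injOn pc ?_ pc_injective.injOn
      intro b hb
      rw [Finset.coe_filter] at hb ⊢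
      refine ⟨Finset.mem_univ _, ?_⟩
      rw [hfc, norm_smul, norm_inv, Real.norm_of_nonneg hβ0.le]
      calc 1 / (L₀ * 2 ^ M' + β / e' + N₀) ≤ 1 / (β / e') := by
            apply one_div_le_one_div_of_le (by positivity)
            have h5 : (0:ℝ) ≤ L₀ * 2 ^ M' := by positivity
            have h6 : (0:ℝ) ≤ N₀ := by positivity
            linarith
        _ = β⁻¹ * e' := by field_simp
        _ ≤ _ := mul_le_mul_of_nonneg_left hb.2.le (by positivity)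
    have h2 : (#B : ℝ) ≤ 2 ^ M' * #(Finset.univ.filter fun b : AddChar (Fin M' → G) ℂ =>
        1 / (L₀ * 2 ^ M' + β / e' + N₀) ≤ ‖fcr T (fun x => β⁻¹ • wc U (ν x)) b‖) := by
      refine hU.trans (mul_le_mul_of_nonneg_left ?_ (by positivity))
      exact_mod_cast h1
    have h3 : (0:ℝ) ≤ #(Finset.univ.filter fun b : AddChar (Fin M' → G) ℂ =>
        1 / (L₀ * 2 ^ M' + β / e' + N₀) ≤ ‖fcr T (fun x => β⁻¹ • wc U (ν x)) b‖) := by
      positivity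
    refine hkey.trans ?_
    calc (L₀ : ℝ) * (#B : ℝ) ≤ L₀ * (2 ^ M' * #(Finset.univ.filter fun b :
          AddChar (Fin M' → G) ℂ => 1 / (L₀ * 2 ^ M' + β / e' + N₀) ≤
            ‖fcr T (fun x => β⁻¹ • wc U (ν x)) b‖)) :=
          mul_le_mul_of_nonneg_left h2 (by positivity)
      _ ≤ _ := by
          rw [← mul_assoc]
          refine mul_le_mul_of_nonneg_right ?_ h3
          have h6 : (0:ℝ) ≤ N₀ := by positivity
          linarith

/-- The count for operators of finite rank. -/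
theorem count_fcr (T : X →L[ℝ] X) [FiniteDimensional ℝ (LinearMap.range (T : X →ₗ[ℝ] X))]
    {C e : ℝ} (hT : ‖T‖ ≤ C) (he : 0 < e) (θ : G → (X →L[ℝ] ℝ))
    (hθ : ∀ x, ‖θ x‖ ≤ 1) :
    (#(Finset.univ.filter fun b => e ≤ ‖fcr T θ b‖) : ℝ) * (e / 2) ^ 2 ≤
      2 * ((Module.finrank ℝ (LinearMap.range (T : X →ₗ[ℝ] X)) : ℝ) * C ^ 2) := by
  classical
  set R := LinearMap.range (T : X →ₗ[ℝ] X) with hR
  have hfd : FiniteDimensional ℝ (R →L[ℝ] ℝ) :=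
    (LinearMap.toContinuousLinearMap (𝕜 := ℝ) (E := R) (F' := ℝ)).finiteDimensional
  have hfin : FiniteDimensional ℝ (LinearMap.range (fac T)) := inferInstance
  have hrank : Module.finrank ℝ (LinearMap.range (fac T)) ≤ Module.finrank ℝ R := by
    refine (LinearMap.finrank_range_le (fac T)).trans (le_of_eq ?_)
    exact finrank_dual R
  have hθT : ∀ x, ‖(θ x).comp T‖ ≤ C := fun x => by
    have h0 : 0 ≤ C := (norm_nonneg _).trans hT
    refine (ContinuousLinearMap.opNorm_comp_le _ _).trans ?_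
    calc ‖θ x‖ * ‖T‖ ≤ 1 * C := mul_le_mul (hθ x) hT (norm_nonneg _) zero_le_one
      _ = C := one_mul C
  have h1 := count_re (LinearMap.range (fac T)) (half_pos he) (fun x => (θ x).comp T)
    (fun x => comp_mem T (θ x)) hθT
  have h2 : (Finset.univ.filter fun b => e ≤ ‖fcr T θ b‖) ⊆
      Finset.univ.filter fun b : AddChar G ℂ =>
        e / 2 < ‖avg fun x => (b x).re • (θ x).comp T‖ := by
    intro b hb
    rw [Finset.mem_filter] at hb ⊢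
    refine ⟨hb.1, lt_of_lt_of_le (half_lt_self he) hb.2⟩
  calc (#(Finset.univ.filter fun b => e ≤ ‖fcr T θ b‖) : ℝ) * (e / 2) ^ 2
      ≤ (#(Finset.univ.filter fun b : AddChar G ℂ =>
        e / 2 < ‖avg fun x => (b x).re • (θ x).comp T‖) : ℝ) * (e / 2) ^ 2 := by
        gcongr
    _ ≤ 2 * ((Module.finrank ℝ (LinearMap.range (fac T)) : ℝ) * C ^ 2) := h1
    _ ≤ _ := by gcongr

end

end Vale.Agent.P111.WF
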